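import Vale.Agent.Snaky.P2.Tbl

namespace Vale.Agent.Snaky.P2

theorem ck0 : checkRange tbl 0 26 = 0 := by decide +kernel
theorem ck1 : checkRange tbl 26 24 = 0 := by decide +kernel
theorem ck2 : checkRange tbl 50 17 = 0 := by decide +kernel
theorem ck3 : checkRange tbl 67 16 = 0 := by decide +kernel
theorem ck4 : checkRange tbl 83 16 = 0 := by decide +kernel
theorem ck5 : checkRange tbl 99 16 = 0 := by decide +kernel
theorem ck6 : checkRange tbl 115 15 = 0 := by decide +kernel
theorem ck7 : checkRange tbl 130 15 = 0 := by decide +kernel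
theorem ck8 : checkRange tbl 145 15 = 0 := by decide +kernel
theorem ck9 : checkRange tbl 160 15 = 0 := by decide +kernel
theorem ck10 : checkRange tbl 175 15 = 0 := by decide +kernel
theorem ck11 : checkRange tbl 190 15 = 0 := by decide +kernel
theorem ck12 : checkRange tbl 205 15 = 0 := by decide +kernel
theorem ck13 : checkRange tbl 220 15 = 0 := by decide +kernel
theorem ck14 : checkRange tbl 235 18 = 0 := by decide +kernel
theorem ck15 : checkRange tbl 253 20 = 0 := by decide +kernel
theorem ck16 : checkRange tbl 273 20 = 0 := by decide +kernel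
theorem ck17 : checkRange tbl 293 20 = 0 := by decide +kernel
theorem ck18 : checkRange tbl 313 19 = 0 := by decide +kernel
theorem ck19 : checkRange tbl 332 19 = 0 := by decide +kernel
theorem ck20 : checkRange tbl 351 19 = 0 := by decide +kernel
theorem ck21 : checkRange tbl 370 20 = 0 := by decide +kernel
theorem ck22 : checkRange tbl 390 19 = 0 := by decide +kernel
theorem ck23 : checkRange tbl 409 19 = 0 := by decide +kernel
theorem ck24 : checkRange tbl 428 20 = 0 := by decide +kernel
theorem ck25 : checkRange tbl 448 18 = 0 := by decide +kernel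
theorem ck26 : checkRange tbl 466 19 = 0 := by decide +kernel
theorem ck27 : checkRange tbl 485 20 = 0 := by decide +kernel
theorem ck28 : checkRange tbl 505 21 = 0 := by decide +kernel
theorem ck29 : checkRange tbl 526 20 = 0 := by decide +kernel
theorem ck30 : checkRange tbl 546 20 = 0 := by decide +kernel
theorem ck31 : checkRange tbl 566 19 = 0 := by decide +kernel
theorem ck32 : checkRange tbl 585 20 = 0 := by decide +kernel
theorem ck33 : checkRange tbl 605 19 = 0 := by decide +kernel
theorem ck34 : checkRange tbl 624 20 = 0 := by decide +kernel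
theorem ck35 : checkRange tbl 644 20 = 0 := by decide +kernel
theorem ck36 : checkRange tbl 664 20 = 0 := by decide +kernel
theorem ck37 : checkRange tbl 684 20 = 0 := by decide +kernel
theorem ck38 : checkRange tbl 704 21 = 0 := by decide +kernel
theorem ck39 : checkRange tbl 725 22 = 0 := by decide +kernel
theorem ck40 : checkRange tbl 747 22 = 0 := by decide +kernel
theorem ck41 : checkRange tbl 769 21 = 0 := by decide +kernel
theorem ck42 : checkRange tbl 790 25 = 0 := by decide +kernel
theorem ck43 : checkRange tbl 815 23 = 0 := by decide +kernel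
theorem ck44 : checkRange tbl 838 25 = 0 := by decide +kernel
theorem ck45 : checkRange tbl 863 26 = 0 := by decide +kernel
theorem ck46 : checkRange tbl 889 18 = 0 := by decide +kernel
theorem ck47 : checkRange tbl 907 18 = 0 := by decide +kernel
theorem ck48 : checkRange tbl 925 18 = 0 := by decide +kernel
theorem ck49 : checkRange tbl 943 18 = 0 := by decide +kernel
theorem ck50 : checkRange tbl 961 18 = 0 := by decide +kernel
theorem ck51 : checkRange tbl 979 17 = 0 := by decide +kernel
theorem ck52 : checkRange tbl 996 19 = 0 := by decide +kernel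
theorem ck53 : checkRange tbl 1015 18 = 0 := by decide +kernel
theorem ck54 : checkRange tbl 1033 18 = 0 := by decide +kernel
theorem ck55 : checkRange tbl 1051 17 = 0 := by decide +kernel
theorem ck56 : checkRange tbl 1068 17 = 0 := by decide +kernel
theorem ck57 : checkRange tbl 1085 18 = 0 := by decide +kernel
theorem ck58 : checkRange tbl 1103 18 = 0 := by decide +kernel
theorem ck59 : checkRange tbl 1121 18 = 0 := by decide +kernel
theorem ck60 : checkRange tbl 1139 17 = 0 := by decide +kernel
theorem ck61 : checkRange tbl 1156 18 = 0 := by decide +kernel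
theorem ck62 : checkRange tbl 1174 18 = 0 := by decide +kernel
theorem ck63 : checkRange tbl 1192 19 = 0 := by decide +kernel

theorem rng0 : RangeOK tbl 0 1211 := RangeOK.join (RangeOK.join (RangeOK.join (RangeOK.join (RangeOK.join (RangeOK.join (RangeOK.of_check ck0) (RangeOK.of_check ck1) (Eq.refl 26)) (RangeOK.join (RangeOK.of_check ck2) (RangeOK.of_check ck3) (Eq.refl 67)) (Eq.refl 50)) (RangeOK.join (RangeOK.join (RangeOK.of_check ck4) (RangeOK.of_check ck5) (Eq.refl 99)) (RangeOK.join (RangeOK.of_check ck6) (RangeOK.of_check ck7) (Eq.refl 130)) (Eq.refl 115)) (Eq.refl 83)) (RangeOK.join (RangeOK.join (RangeOK.join (RangeOK.of_check ck8) (RangeOK.of_check ck9) (Eq.refl 160)) (RangeOK.join (RangeOK.of_check ck10) (RangeOK.of_check ck11) (Eq.refl 190)) (Eq.refl 175)) (RangeOK.join (RangeOK.join (RangeOK.of_check ck12) (RangeOK.of_check ck13) (Eq.refl 220)) (RangeOK.join (RangeOK.of_check ck14) (RangeOK.of_check ck15) (Eq.refl 253)) (Eq.refl 235)) (Eq.refl 205)) (Eq.refl 145)) (RangeOK.join (RangeOK.join (RangeOK.join (RangeOK.join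 (RangeOK.of_check ck16) (RangeOK.of_check ck17) (Eq.refl 293)) (RangeOK.join (RangeOK.of_check ck18) (RangeOK.of_check ck19) (Eq.refl 332)) (Eq.refl 313)) (RangeOK.join (RangeOK.join (RangeOK.of_check ck20) (RangeOK.of_check ck21) (Eq.refl 370)) (RangeOK.join (RangeOK.of_check ck22) (RangeOK.of_check ck23) (Eq.refl 409)) (Eq.refl 390)) (Eq.refl 351)) (RangeOK.join (RangeOK.join (RangeOK.join (RangeOK.of_check ck24) (RangeOK.of_check ck25) (Eq.refl 448)) (RangeOK.join (RangeOK.of_check ck26) (RangeOK.of_check ck27) (Eq.refl 485)) (Eq.refl 466)) (RangeOK.join (RangeOK.join (RangeOK.of_check ck28) (RangeOK.of_check ck29) (Eq.refl 526)) (RangeOK.join (RangeOK.of_check ck30) (RangeOK.of_check ck31) (Eq.refl 566)) (Eq.refl 546)) (Eq.refl 505)) (Eq.refl 428)) (Eq.refl 273)) (RangeOK.join (RangeOK.join (RangeOK.join (RangeOK.join (RangeOK.join (RangeOK.of_check ck32) (RangeOK.of_check ck33) (Eq.refl 605)) (RangeOK.join (RangeOK.of_check ck34) (RangeOK.of_check ck35) (Eq.refl 644)) (Eq.refl 624)) (RangeOK.join (RangeOK.join (RangeOK.of_check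 ck36) (RangeOK.of_check ck37) (Eq.refl 684)) (RangeOK.join (RangeOK.of_check ck38) (RangeOK.of_check ck39) (Eq.refl 725)) (Eq.refl 704)) (Eq.refl 664)) (RangeOK.join (RangeOK.join (RangeOK.join (RangeOK.of_check ck40) (RangeOK.of_check ck41) (Eq.refl 769)) (RangeOK.join (RangeOK.of_check ck42) (RangeOK.of_check ck43) (Eq.refl 815)) (Eq.refl 790)) (RangeOK.join (RangeOK.join (RangeOK.of_check ck44) (RangeOK.of_check ck45) (Eq.refl 863)) (RangeOK.join (RangeOK.of_check ck46) (RangeOK.of_check ck47) (Eq.refl 907)) (Eq.refl 889)) (Eq.refl 838)) (Eq.refl 747)) (RangeOK.join (RangeOK.join (RangeOK.join (RangeOK.join (RangeOK.of_check ck48) (RangeOK.of_check ck49) (Eq.refl 943)) (RangeOK.join (RangeOK.of_check ck50) (RangeOK.of_check ck51) (Eq.refl 979)) (Eq.refl 961)) (RangeOK.join (RangeOK.join (RangeOK.of_check ck52) (RangeOK.of_check ck53) (Eq.refl 1015)) (RangeOK.join (RangeOK.of_check ck54) (RangeOK.of_check ck55) (Eq.refl 1051)) (Eq.refl 1033)) (Eq.refl 996)) (RangeOK.join (RangeOK.join (RangeOK.join (RangeOK.of_check ck56)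 (RangeOK.of_check ck57) (Eq.refl 1085)) (RangeOK.join (RangeOK.of_check ck58) (RangeOK.of_check ck59) (Eq.refl 1121)) (Eq.refl 1103)) (RangeOK.join (RangeOK.join (RangeOK.of_check ck60) (RangeOK.of_check ck61) (Eq.refl 1156)) (RangeOK.join (RangeOK.of_check ck62) (RangeOK.of_check ck63) (Eq.refl 1192)) (Eq.refl 1174)) (Eq.refl 1139)) (Eq.refl 1068)) (Eq.refl 925)) (Eq.refl 585)

end Vale.Agent.Snaky.P2
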