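import Vale.Agent.Snaky.P2.Tbl

namespace Vale.Agent.Snaky.P2

theorem ck64 : checkRange tbl 1211 17 = 0 := by decide +kernel
theorem ck65 : checkRange tbl 1228 18 = 0 := by decide +kernel
theorem ck66 : checkRange tbl 1246 19 = 0 := by decide +kernel
theorem ck67 : checkRange tbl 1265 18 = 0 := by decide +kernel
theorem ck68 : checkRange tbl 1283 18 = 0 := by decide +kernel
theorem ck69 : checkRange tbl 1301 18 = 0 := by decide +kernel
theorem ck70 : checkRange tbl 1319 18 = 0 := by decide +kernel
theorem ck71 : checkRange tbl 1337 20 = 0 := by decide +kernel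
theorem ck72 : checkRange tbl 1357 17 = 0 := by decide +kernel
theorem ck73 : checkRange tbl 1374 18 = 0 := by decide +kernel
theorem ck74 : checkRange tbl 1392 19 = 0 := by decide +kernel
theorem ck75 : checkRange tbl 1411 20 = 0 := by decide +kernel
theorem ck76 : checkRange tbl 1431 18 = 0 := by decide +kernel
theorem ck77 : checkRange tbl 1449 19 = 0 := by decide +kernel
theorem ck78 : checkRange tbl 1468 19 = 0 := by decide +kernel
theorem ck79 : checkRange tbl 1487 18 = 0 := by decide +kernel
theorem ck80 : checkRange tbl 1505 18 = 0 := by decide +kernel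
theorem ck81 : checkRange tbl 1523 19 = 0 := by decide +kernel
theorem ck82 : checkRange tbl 1542 19 = 0 := by decide +kernel
theorem ck83 : checkRange tbl 1561 18 = 0 := by decide +kernel
theorem ck84 : checkRange tbl 1579 19 = 0 := by decide +kernel
theorem ck85 : checkRange tbl 1598 19 = 0 := by decide +kernel
theorem ck86 : checkRange tbl 1617 18 = 0 := by decide +kernel
theorem ck87 : checkRange tbl 1635 18 = 0 := by decide +kernel
theorem ck88 : checkRange tbl 1653 18 = 0 := by decide +kernel
theorem ck89 : checkRange tbl 1671 19 = 0 := by decide +kernel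
theorem ck90 : checkRange tbl 1690 19 = 0 := by decide +kernel
theorem ck91 : checkRange tbl 1709 19 = 0 := by decide +kernel
theorem ck92 : checkRange tbl 1728 19 = 0 := by decide +kernel
theorem ck93 : checkRange tbl 1747 19 = 0 := by decide +kernel
theorem ck94 : checkRange tbl 1766 19 = 0 := by decide +kernel
theorem ck95 : checkRange tbl 1785 20 = 0 := by decide +kernel
theorem ck96 : checkRange tbl 1805 19 = 0 := by decide +kernel
theorem ck97 : checkRange tbl 1824 19 = 0 := by decide +kernel
theorem ck98 : checkRange tbl 1843 16 = 0 := by decide +kernel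
theorem ck99 : checkRange tbl 1859 17 = 0 := by decide +kernel
theorem ck100 : checkRange tbl 1876 19 = 0 := by decide +kernel
theorem ck101 : checkRange tbl 1895 17 = 0 := by decide +kernel
theorem ck102 : checkRange tbl 1912 17 = 0 := by decide +kernel
theorem ck103 : checkRange tbl 1929 17 = 0 := by decide +kernel
theorem ck104 : checkRange tbl 1946 19 = 0 := by decide +kernel
theorem ck105 : checkRange tbl 1965 17 = 0 := by decide +kernel
theorem ck106 : checkRange tbl 1982 18 = 0 := by decide +kernel
theorem ck107 : checkRange tbl 2000 18 = 0 := by decide +kernel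
theorem ck108 : checkRange tbl 2018 18 = 0 := by decide +kernel
theorem ck109 : checkRange tbl 2036 18 = 0 := by decide +kernel
theorem ck110 : checkRange tbl 2054 16 = 0 := by decide +kernel
theorem ck111 : checkRange tbl 2070 17 = 0 := by decide +kernel
theorem ck112 : checkRange tbl 2087 17 = 0 := by decide +kernel
theorem ck113 : checkRange tbl 2104 17 = 0 := by decide +kernel
theorem ck114 : checkRange tbl 2121 18 = 0 := by decide +kernel
theorem ck115 : checkRange tbl 2139 18 = 0 := by decide +kernel
theorem ck116 : checkRange tbl 2157 16 = 0 := by decide +kernel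
theorem ck117 : checkRange tbl 2173 19 = 0 := by decide +kernel
theorem ck118 : checkRange tbl 2192 19 = 0 := by decide +kernel
theorem ck119 : checkRange tbl 2211 18 = 0 := by decide +kernel
theorem ck120 : checkRange tbl 2229 18 = 0 := by decide +kernel
theorem ck121 : checkRange tbl 2247 17 = 0 := by decide +kernel
theorem ck122 : checkRange tbl 2264 17 = 0 := by decide +kernel
theorem ck123 : checkRange tbl 2281 18 = 0 := by decide +kernel
theorem ck124 : checkRange tbl 2299 18 = 0 := by decide +kernel
theorem ck125 : checkRange tbl 2317 18 = 0 := by decide +kernel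
theorem ck126 : checkRange tbl 2335 19 = 0 := by decide +kernel
theorem ck127 : checkRange tbl 2354 22 = 0 := by decide +kernel

theorem rng1 : RangeOK tbl 1211 1165 := RangeOK.join (RangeOK.join (RangeOK.join (RangeOK.join (RangeOK.join (RangeOK.join (RangeOK.of_check ck64) (RangeOK.of_check ck65) (Eq.refl 1228)) (RangeOK.join (RangeOK.of_check ck66) (RangeOK.of_check ck67) (Eq.refl 1265)) (Eq.refl 1246)) (RangeOK.join (RangeOK.join (RangeOK.of_check ck68) (RangeOK.of_check ck69) (Eq.refl 1301)) (RangeOK.join (RangeOK.of_check ck70) (RangeOK.of_check ck71) (Eq.refl 1337)) (Eq.refl 1319)) (Eq.refl 1283)) (RangeOK.join (RangeOK.join (RangeOK.join (RangeOK.of_check ck72) (RangeOK.of_check ck73) (Eq.refl 1374)) (RangeOK.join (RangeOK.of_check ck74) (RangeOK.of_check ck75) (Eq.refl 1411)) (Eq.refl 1392)) (RangeOK.join (RangeOK.join (RangeOK.of_check ck76) (RangeOK.of_check ck77) (Eq.refl 1449)) (RangeOK.join (RangeOK.of_check ck78) (RangeOK.of_check ck79) (Eq.refl 1487)) (Eq.refl 1468)) (Eq.refl 1431)) (Eq.refl 1357)) (RangeOK.join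 (RangeOK.join (RangeOK.join (RangeOK.join (RangeOK.of_check ck80) (RangeOK.of_check ck81) (Eq.refl 1523)) (RangeOK.join (RangeOK.of_check ck82) (RangeOK.of_check ck83) (Eq.refl 1561)) (Eq.refl 1542)) (RangeOK.join (RangeOK.join (RangeOK.of_check ck84) (RangeOK.of_check ck85) (Eq.refl 1598)) (RangeOK.join (RangeOK.of_check ck86) (RangeOK.of_check ck87) (Eq.refl 1635)) (Eq.refl 1617)) (Eq.refl 1579)) (RangeOK.join (RangeOK.join (RangeOK.join (RangeOK.of_check ck88) (RangeOK.of_check ck89) (Eq.refl 1671)) (RangeOK.join (RangeOK.of_check ck90) (RangeOK.of_check ck91) (Eq.refl 1709)) (Eq.refl 1690)) (RangeOK.join (RangeOK.join (RangeOK.of_check ck92) (RangeOK.of_check ck93) (Eq.refl 1747)) (RangeOK.join (RangeOK.of_check ck94) (RangeOK.of_check ck95) (Eq.refl 1785)) (Eq.refl 1766)) (Eq.refl 1728)) (Eq.refl 1653)) (Eq.refl 1505)) (RangeOK.join (RangeOK.join (RangeOK.join (RangeOK.join (RangeOK.join (RangeOK.of_check ck96) (RangeOK.of_check ck97) (Eq.refl 1824)) (RangeOK.join (RangeOK.of_check ck98) (RangeOK.of_check ck99) (Eq.refl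 1859)) (Eq.refl 1843)) (RangeOK.join (RangeOK.join (RangeOK.of_check ck100) (RangeOK.of_check ck101) (Eq.refl 1895)) (RangeOK.join (RangeOK.of_check ck102) (RangeOK.of_check ck103) (Eq.refl 1929)) (Eq.refl 1912)) (Eq.refl 1876)) (RangeOK.join (RangeOK.join (RangeOK.join (RangeOK.of_check ck104) (RangeOK.of_check ck105) (Eq.refl 1965)) (RangeOK.join (RangeOK.of_check ck106) (RangeOK.of_check ck107) (Eq.refl 2000)) (Eq.refl 1982)) (RangeOK.join (RangeOK.join (RangeOK.of_check ck108) (RangeOK.of_check ck109) (Eq.refl 2036)) (RangeOK.join (RangeOK.of_check ck110) (RangeOK.of_check ck111) (Eq.refl 2070)) (Eq.refl 2054)) (Eq.refl 2018)) (Eq.refl 1946)) (RangeOK.join (RangeOK.join (RangeOK.join (RangeOK.join (RangeOK.of_check ck112) (RangeOK.of_check ck113) (Eq.refl 2104)) (RangeOK.join (RangeOK.of_check ck114) (RangeOK.of_check ck115) (Eq.refl 2139)) (Eq.refl 2121)) (RangeOK.join (RangeOK.join (RangeOK.of_check ck116) (RangeOK.of_check ck117) (Eq.refl 2173)) (RangeOK.join (RangeOK.of_check ck118) (RangeOK.of_check ck119) (Eq.refl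 2211)) (Eq.refl 2192)) (Eq.refl 2157)) (RangeOK.join (RangeOK.join (RangeOK.join (RangeOK.of_check ck120) (RangeOK.of_check ck121) (Eq.refl 2247)) (RangeOK.join (RangeOK.of_check ck122) (RangeOK.of_check ck123) (Eq.refl 2281)) (Eq.refl 2264)) (RangeOK.join (RangeOK.join (RangeOK.of_check ck124) (RangeOK.of_check ck125) (Eq.refl 2317)) (RangeOK.join (RangeOK.of_check ck126) (RangeOK.of_check ck127) (Eq.refl 2354)) (Eq.refl 2335)) (Eq.refl 2299)) (Eq.refl 2229)) (Eq.refl 2087)) (Eq.refl 1805)

end Vale.Agent.Snaky.P2
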