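import Vale.Agent.Snaky.P2.Tbl

namespace Vale.Agent.Snaky.P2

theorem ck640 : checkRange tbl 12227 16 = 0 := by decide +kernel
theorem ck641 : checkRange tbl 12243 17 = 0 := by decide +kernel
theorem ck642 : checkRange tbl 12260 13 = 0 := by decide +kernel
theorem ck643 : checkRange tbl 12273 11 = 0 := by decide +kernel
theorem ck644 : checkRange tbl 12284 12 = 0 := by decide +kernel
theorem ck645 : checkRange tbl 12296 14 = 0 := by decide +kernel
theorem ck646 : checkRange tbl 12310 12 = 0 := by decide +kernel
theorem ck647 : checkRange tbl 12322 14 = 0 := by decide +kernel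
theorem ck648 : checkRange tbl 12336 14 = 0 := by decide +kernel
theorem ck649 : checkRange tbl 12350 13 = 0 := by decide +kernel
theorem ck650 : checkRange tbl 12363 12 = 0 := by decide +kernel
theorem ck651 : checkRange tbl 12375 13 = 0 := by decide +kernel
theorem ck652 : checkRange tbl 12388 15 = 0 := by decide +kernel
theorem ck653 : checkRange tbl 12403 11 = 0 := by decide +kernel
theorem ck654 : checkRange tbl 12414 12 = 0 := by decide +kernel
theorem ck655 : checkRange tbl 12426 14 = 0 := by decide +kernel
theorem ck656 : checkRange tbl 12440 16 = 0 := by decide +kernel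
theorem ck657 : checkRange tbl 12456 16 = 0 := by decide +kernel
theorem ck658 : checkRange tbl 12472 16 = 0 := by decide +kernel
theorem ck659 : checkRange tbl 12488 16 = 0 := by decide +kernel
theorem ck660 : checkRange tbl 12504 17 = 0 := by decide +kernel
theorem ck661 : checkRange tbl 12521 15 = 0 := by decide +kernel
theorem ck662 : checkRange tbl 12536 16 = 0 := by decide +kernel
theorem ck663 : checkRange tbl 12552 16 = 0 := by decide +kernel
theorem ck664 : checkRange tbl 12568 17 = 0 := by decide +kernel
theorem ck665 : checkRange tbl 12585 14 = 0 := by decide +kernel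
theorem ck666 : checkRange tbl 12599 14 = 0 := by decide +kernel
theorem ck667 : checkRange tbl 12613 17 = 0 := by decide +kernel
theorem ck668 : checkRange tbl 12630 16 = 0 := by decide +kernel
theorem ck669 : checkRange tbl 12646 17 = 0 := by decide +kernel
theorem ck670 : checkRange tbl 12663 17 = 0 := by decide +kernel
theorem ck671 : checkRange tbl 12680 17 = 0 := by decide +kernel
theorem ck672 : checkRange tbl 12697 17 = 0 := by decide +kernel
theorem ck673 : checkRange tbl 12714 15 = 0 := by decide +kernel
theorem ck674 : checkRange tbl 12729 16 = 0 := by decide +kernel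
theorem ck675 : checkRange tbl 12745 15 = 0 := by decide +kernel
theorem ck676 : checkRange tbl 12760 15 = 0 := by decide +kernel
theorem ck677 : checkRange tbl 12775 17 = 0 := by decide +kernel
theorem ck678 : checkRange tbl 12792 15 = 0 := by decide +kernel
theorem ck679 : checkRange tbl 12807 18 = 0 := by decide +kernel
theorem ck680 : checkRange tbl 12825 16 = 0 := by decide +kernel
theorem ck681 : checkRange tbl 12841 18 = 0 := by decide +kernel
theorem ck682 : checkRange tbl 12859 15 = 0 := by decide +kernel
theorem ck683 : checkRange tbl 12874 16 = 0 := by decide +kernel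
theorem ck684 : checkRange tbl 12890 17 = 0 := by decide +kernel
theorem ck685 : checkRange tbl 12907 17 = 0 := by decide +kernel
theorem ck686 : checkRange tbl 12924 18 = 0 := by decide +kernel
theorem ck687 : checkRange tbl 12942 19 = 0 := by decide +kernel
theorem ck688 : checkRange tbl 12961 18 = 0 := by decide +kernel
theorem ck689 : checkRange tbl 12979 17 = 0 := by decide +kernel
theorem ck690 : checkRange tbl 12996 17 = 0 := by decide +kernel
theorem ck691 : checkRange tbl 13013 17 = 0 := by decide +kernel
theorem ck692 : checkRange tbl 13030 17 = 0 := by decide +kernel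
theorem ck693 : checkRange tbl 13047 17 = 0 := by decide +kernel
theorem ck694 : checkRange tbl 13064 18 = 0 := by decide +kernel
theorem ck695 : checkRange tbl 13082 15 = 0 := by decide +kernel
theorem ck696 : checkRange tbl 13097 17 = 0 := by decide +kernel
theorem ck697 : checkRange tbl 13114 15 = 0 := by decide +kernel
theorem ck698 : checkRange tbl 13129 15 = 0 := by decide +kernel
theorem ck699 : checkRange tbl 13144 16 = 0 := by decide +kernel
theorem ck700 : checkRange tbl 13160 16 = 0 := by decide +kernel
theorem ck701 : checkRange tbl 13176 17 = 0 := by decide +kernel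
theorem ck702 : checkRange tbl 13193 16 = 0 := by decide +kernel
theorem ck703 : checkRange tbl 13209 12 = 0 := by decide +kernel

theorem rng10 : RangeOK tbl 12227 994 := RangeOK.join (RangeOK.join (RangeOK.join (RangeOK.join (RangeOK.join (RangeOK.join (RangeOK.of_check ck640) (RangeOK.of_check ck641) (Eq.refl 12243)) (RangeOK.join (RangeOK.of_check ck642) (RangeOK.of_check ck643) (Eq.refl 12273)) (Eq.refl 12260)) (RangeOK.join (RangeOK.join (RangeOK.of_check ck644) (RangeOK.of_check ck645) (Eq.refl 12296)) (RangeOK.join (RangeOK.of_check ck646) (RangeOK.of_check ck647) (Eq.refl 12322)) (Eq.refl 12310)) (Eq.refl 12284)) (RangeOK.join (RangeOK.join (RangeOK.join (RangeOK.of_check ck648) (RangeOK.of_check ck649) (Eq.refl 12350)) (RangeOK.join (RangeOK.of_check ck650) (RangeOK.of_check ck651) (Eq.refl 12375)) (Eq.refl 12363)) (RangeOK.join (RangeOK.join (RangeOK.of_check ck652) (RangeOK.of_check ck653) (Eq.refl 12403)) (RangeOK.join (RangeOK.of_check ck654) (RangeOK.of_check ck655) (Eq.refl 12426)) (Eq.refl 12414)) (Eq.refl 12388)) (Eq.refl 12336)) (RangeOK.join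 (RangeOK.join (RangeOK.join (RangeOK.join (RangeOK.of_check ck656) (RangeOK.of_check ck657) (Eq.refl 12456)) (RangeOK.join (RangeOK.of_check ck658) (RangeOK.of_check ck659) (Eq.refl 12488)) (Eq.refl 12472)) (RangeOK.join (RangeOK.join (RangeOK.of_check ck660) (RangeOK.of_check ck661) (Eq.refl 12521)) (RangeOK.join (RangeOK.of_check ck662) (RangeOK.of_check ck663) (Eq.refl 12552)) (Eq.refl 12536)) (Eq.refl 12504)) (RangeOK.join (RangeOK.join (RangeOK.join (RangeOK.of_check ck664) (RangeOK.of_check ck665) (Eq.refl 12585)) (RangeOK.join (RangeOK.of_check ck666) (RangeOK.of_check ck667) (Eq.refl 12613)) (Eq.refl 12599)) (RangeOK.join (RangeOK.join (RangeOK.of_check ck668) (RangeOK.of_check ck669) (Eq.refl 12646)) (RangeOK.join (RangeOK.of_check ck670) (RangeOK.of_check ck671) (Eq.refl 12680)) (Eq.refl 12663)) (Eq.refl 12630)) (Eq.refl 12568)) (Eq.refl 12440)) (RangeOK.join (RangeOK.join (RangeOK.join (RangeOK.join (RangeOK.join (RangeOK.of_check ck672) (RangeOK.of_check ck673) (Eq.refl 12714)) (RangeOK.join (RangeOK.of_check ck674) (RangeOK.of_check ck675)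 (Eq.refl 12745)) (Eq.refl 12729)) (RangeOK.join (RangeOK.join (RangeOK.of_check ck676) (RangeOK.of_check ck677) (Eq.refl 12775)) (RangeOK.join (RangeOK.of_check ck678) (RangeOK.of_check ck679) (Eq.refl 12807)) (Eq.refl 12792)) (Eq.refl 12760)) (RangeOK.join (RangeOK.join (RangeOK.join (RangeOK.of_check ck680) (RangeOK.of_check ck681) (Eq.refl 12841)) (RangeOK.join (RangeOK.of_check ck682) (RangeOK.of_check ck683) (Eq.refl 12874)) (Eq.refl 12859)) (RangeOK.join (RangeOK.join (RangeOK.of_check ck684) (RangeOK.of_check ck685) (Eq.refl 12907)) (RangeOK.join (RangeOK.of_check ck686) (RangeOK.of_check ck687) (Eq.refl 12942)) (Eq.refl 12924)) (Eq.refl 12890)) (Eq.refl 12825)) (RangeOK.join (RangeOK.join (RangeOK.join (RangeOK.join (RangeOK.of_check ck688) (RangeOK.of_check ck689) (Eq.refl 12979)) (RangeOK.join (RangeOK.of_check ck690) (RangeOK.of_check ck691) (Eq.refl 13013)) (Eq.refl 12996)) (RangeOK.join (RangeOK.join (RangeOK.of_check ck692) (RangeOK.of_check ck693) (Eq.refl 13047)) (RangeOK.join (RangeOK.of_check ck694) (RangeOK.of_check ck695) (Eq.refl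 13082)) (Eq.refl 13064)) (Eq.refl 13030)) (RangeOK.join (RangeOK.join (RangeOK.join (RangeOK.of_check ck696) (RangeOK.of_check ck697) (Eq.refl 13114)) (RangeOK.join (RangeOK.of_check ck698) (RangeOK.of_check ck699) (Eq.refl 13144)) (Eq.refl 13129)) (RangeOK.join (RangeOK.join (RangeOK.of_check ck700) (RangeOK.of_check ck701) (Eq.refl 13176)) (RangeOK.join (RangeOK.of_check ck702) (RangeOK.of_check ck703) (Eq.refl 13209)) (Eq.refl 13193)) (Eq.refl 13160)) (Eq.refl 13097)) (Eq.refl 12961)) (Eq.refl 12697)

end Vale.Agent.Snaky.P2
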