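import Vale.Agent.Snaky.P2.Tbl

namespace Vale.Agent.Snaky.P2

theorem ck704 : checkRange tbl 13221 14 = 0 := by decide +kernel
theorem ck705 : checkRange tbl 13235 14 = 0 := by decide +kernel
theorem ck706 : checkRange tbl 13249 17 = 0 := by decide +kernel
theorem ck707 : checkRange tbl 13266 13 = 0 := by decide +kernel
theorem ck708 : checkRange tbl 13279 17 = 0 := by decide +kernel
theorem ck709 : checkRange tbl 13296 13 = 0 := by decide +kernel
theorem ck710 : checkRange tbl 13309 14 = 0 := by decide +kernel
theorem ck711 : checkRange tbl 13323 15 = 0 := by decide +kernel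
theorem ck712 : checkRange tbl 13338 14 = 0 := by decide +kernel
theorem ck713 : checkRange tbl 13352 18 = 0 := by decide +kernel
theorem ck714 : checkRange tbl 13370 16 = 0 := by decide +kernel
theorem ck715 : checkRange tbl 13386 14 = 0 := by decide +kernel
theorem ck716 : checkRange tbl 13400 17 = 0 := by decide +kernel
theorem ck717 : checkRange tbl 13417 19 = 0 := by decide +kernel
theorem ck718 : checkRange tbl 13436 15 = 0 := by decide +kernel
theorem ck719 : checkRange tbl 13451 12 = 0 := by decide +kernel
theorem ck720 : checkRange tbl 13463 14 = 0 := by decide +kernel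
theorem ck721 : checkRange tbl 13477 12 = 0 := by decide +kernel
theorem ck722 : checkRange tbl 13489 13 = 0 := by decide +kernel
theorem ck723 : checkRange tbl 13502 14 = 0 := by decide +kernel
theorem ck724 : checkRange tbl 13516 14 = 0 := by decide +kernel
theorem ck725 : checkRange tbl 13530 14 = 0 := by decide +kernel
theorem ck726 : checkRange tbl 13544 12 = 0 := by decide +kernel
theorem ck727 : checkRange tbl 13556 12 = 0 := by decide +kernel
theorem ck728 : checkRange tbl 13568 14 = 0 := by decide +kernel
theorem ck729 : checkRange tbl 13582 13 = 0 := by decide +kernel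
theorem ck730 : checkRange tbl 13595 12 = 0 := by decide +kernel
theorem ck731 : checkRange tbl 13607 16 = 0 := by decide +kernel
theorem ck732 : checkRange tbl 13623 14 = 0 := by decide +kernel
theorem ck733 : checkRange tbl 13637 12 = 0 := by decide +kernel
theorem ck734 : checkRange tbl 13649 13 = 0 := by decide +kernel
theorem ck735 : checkRange tbl 13662 18 = 0 := by decide +kernel
theorem ck736 : checkRange tbl 13680 22 = 0 := by decide +kernel
theorem ck737 : checkRange tbl 13702 17 = 0 := by decide +kernel
theorem ck738 : checkRange tbl 13719 14 = 0 := by decide +kernel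
theorem ck739 : checkRange tbl 13733 14 = 0 := by decide +kernel
theorem ck740 : checkRange tbl 13747 17 = 0 := by decide +kernel
theorem ck741 : checkRange tbl 13764 12 = 0 := by decide +kernel
theorem ck742 : checkRange tbl 13776 13 = 0 := by decide +kernel
theorem ck743 : checkRange tbl 13789 12 = 0 := by decide +kernel
theorem ck744 : checkRange tbl 13801 18 = 0 := by decide +kernel
theorem ck745 : checkRange tbl 13819 17 = 0 := by decide +kernel
theorem ck746 : checkRange tbl 13836 13 = 0 := by decide +kernel
theorem ck747 : checkRange tbl 13849 19 = 0 := by decide +kernel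
theorem ck748 : checkRange tbl 13868 12 = 0 := by decide +kernel
theorem ck749 : checkRange tbl 13880 15 = 0 := by decide +kernel
theorem ck750 : checkRange tbl 13895 17 = 0 := by decide +kernel
theorem ck751 : checkRange tbl 13912 19 = 0 := by decide +kernel
theorem ck752 : checkRange tbl 13931 20 = 0 := by decide +kernel
theorem ck753 : checkRange tbl 13951 20 = 0 := by decide +kernel
theorem ck754 : checkRange tbl 13971 19 = 0 := by decide +kernel
theorem ck755 : checkRange tbl 13990 16 = 0 := by decide +kernel
theorem ck756 : checkRange tbl 14006 20 = 0 := by decide +kernel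
theorem ck757 : checkRange tbl 14026 15 = 0 := by decide +kernel
theorem ck758 : checkRange tbl 14041 20 = 0 := by decide +kernel
theorem ck759 : checkRange tbl 14061 23 = 0 := by decide +kernel
theorem ck760 : checkRange tbl 14084 23 = 0 := by decide +kernel
theorem ck761 : checkRange tbl 14107 30 = 0 := by decide +kernel
theorem ck762 : checkRange tbl 14137 20 = 0 := by decide +kernel
theorem ck763 : checkRange tbl 14157 26 = 0 := by decide +kernel
theorem ck764 : checkRange tbl 14183 16 = 0 := by decide +kernel
theorem ck765 : checkRange tbl 14199 24 = 0 := by decide +kernel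
theorem ck766 : checkRange tbl 14223 30 = 0 := by decide +kernel
theorem ck767 : checkRange tbl 14253 23 = 0 := by decide +kernel

theorem rng11 : RangeOK tbl 13221 1055 := RangeOK.join (RangeOK.join (RangeOK.join (RangeOK.join (RangeOK.join (RangeOK.join (RangeOK.of_check ck704) (RangeOK.of_check ck705) (Eq.refl 13235)) (RangeOK.join (RangeOK.of_check ck706) (RangeOK.of_check ck707) (Eq.refl 13266)) (Eq.refl 13249)) (RangeOK.join (RangeOK.join (RangeOK.of_check ck708) (RangeOK.of_check ck709) (Eq.refl 13296)) (RangeOK.join (RangeOK.of_check ck710) (RangeOK.of_check ck711) (Eq.refl 13323)) (Eq.refl 13309)) (Eq.refl 13279)) (RangeOK.join (RangeOK.join (RangeOK.join (RangeOK.of_check ck712) (RangeOK.of_check ck713) (Eq.refl 13352)) (RangeOK.join (RangeOK.of_check ck714) (RangeOK.of_check ck715) (Eq.refl 13386)) (Eq.refl 13370)) (RangeOK.join (RangeOK.join (RangeOK.of_check ck716) (RangeOK.of_check ck717) (Eq.refl 13417)) (RangeOK.join (RangeOK.of_check ck718) (RangeOK.of_check ck719) (Eq.refl 13451)) (Eq.refl 13436)) (Eq.refl 13400)) (Eq.refl 13338)) (RangeOK.join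 (RangeOK.join (RangeOK.join (RangeOK.join (RangeOK.of_check ck720) (RangeOK.of_check ck721) (Eq.refl 13477)) (RangeOK.join (RangeOK.of_check ck722) (RangeOK.of_check ck723) (Eq.refl 13502)) (Eq.refl 13489)) (RangeOK.join (RangeOK.join (RangeOK.of_check ck724) (RangeOK.of_check ck725) (Eq.refl 13530)) (RangeOK.join (RangeOK.of_check ck726) (RangeOK.of_check ck727) (Eq.refl 13556)) (Eq.refl 13544)) (Eq.refl 13516)) (RangeOK.join (RangeOK.join (RangeOK.join (RangeOK.of_check ck728) (RangeOK.of_check ck729) (Eq.refl 13582)) (RangeOK.join (RangeOK.of_check ck730) (RangeOK.of_check ck731) (Eq.refl 13607)) (Eq.refl 13595)) (RangeOK.join (RangeOK.join (RangeOK.of_check ck732) (RangeOK.of_check ck733) (Eq.refl 13637)) (RangeOK.join (RangeOK.of_check ck734) (RangeOK.of_check ck735) (Eq.refl 13662)) (Eq.refl 13649)) (Eq.refl 13623)) (Eq.refl 13568)) (Eq.refl 13463)) (RangeOK.join (RangeOK.join (RangeOK.join (RangeOK.join (RangeOK.join (RangeOK.of_check ck736) (RangeOK.of_check ck737) (Eq.refl 13702)) (RangeOK.join (RangeOK.of_check ck738) (RangeOK.of_check ck739)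 (Eq.refl 13733)) (Eq.refl 13719)) (RangeOK.join (RangeOK.join (RangeOK.of_check ck740) (RangeOK.of_check ck741) (Eq.refl 13764)) (RangeOK.join (RangeOK.of_check ck742) (RangeOK.of_check ck743) (Eq.refl 13789)) (Eq.refl 13776)) (Eq.refl 13747)) (RangeOK.join (RangeOK.join (RangeOK.join (RangeOK.of_check ck744) (RangeOK.of_check ck745) (Eq.refl 13819)) (RangeOK.join (RangeOK.of_check ck746) (RangeOK.of_check ck747) (Eq.refl 13849)) (Eq.refl 13836)) (RangeOK.join (RangeOK.join (RangeOK.of_check ck748) (RangeOK.of_check ck749) (Eq.refl 13880)) (RangeOK.join (RangeOK.of_check ck750) (RangeOK.of_check ck751) (Eq.refl 13912)) (Eq.refl 13895)) (Eq.refl 13868)) (Eq.refl 13801)) (RangeOK.join (RangeOK.join (RangeOK.join (RangeOK.join (RangeOK.of_check ck752) (RangeOK.of_check ck753) (Eq.refl 13951)) (RangeOK.join (RangeOK.of_check ck754) (RangeOK.of_check ck755) (Eq.refl 13990)) (Eq.refl 13971)) (RangeOK.join (RangeOK.join (RangeOK.of_check ck756) (RangeOK.of_check ck757) (Eq.refl 14026)) (RangeOK.join (RangeOK.of_check ck758) (RangeOK.of_check ck759) (Eq.refl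 14061)) (Eq.refl 14041)) (Eq.refl 14006)) (RangeOK.join (RangeOK.join (RangeOK.join (RangeOK.of_check ck760) (RangeOK.of_check ck761) (Eq.refl 14107)) (RangeOK.join (RangeOK.of_check ck762) (RangeOK.of_check ck763) (Eq.refl 14157)) (Eq.refl 14137)) (RangeOK.join (RangeOK.join (RangeOK.of_check ck764) (RangeOK.of_check ck765) (Eq.refl 14199)) (RangeOK.join (RangeOK.of_check ck766) (RangeOK.of_check ck767) (Eq.refl 14253)) (Eq.refl 14223)) (Eq.refl 14183)) (Eq.refl 14084)) (Eq.refl 13931)) (Eq.refl 13680)

end Vale.Agent.Snaky.P2
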