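import Vale.Agent.Snaky.P2.Tbl

namespace Vale.Agent.Snaky.P2

theorem ck768 : checkRange tbl 14276 21 = 0 := by decide +kernel
theorem ck769 : checkRange tbl 14297 22 = 0 := by decide +kernel
theorem ck770 : checkRange tbl 14319 23 = 0 := by decide +kernel
theorem ck771 : checkRange tbl 14342 27 = 0 := by decide +kernel
theorem ck772 : checkRange tbl 14369 30 = 0 := by decide +kernel
theorem ck773 : checkRange tbl 14399 28 = 0 := by decide +kernel
theorem ck774 : checkRange tbl 14427 30 = 0 := by decide +kernel
theorem ck775 : checkRange tbl 14457 22 = 0 := by decide +kernel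
theorem ck776 : checkRange tbl 14479 20 = 0 := by decide +kernel
theorem ck777 : checkRange tbl 14499 16 = 0 := by decide +kernel
theorem ck778 : checkRange tbl 14515 22 = 0 := by decide +kernel
theorem ck779 : checkRange tbl 14537 22 = 0 := by decide +kernel
theorem ck780 : checkRange tbl 14559 30 = 0 := by decide +kernel
theorem ck781 : checkRange tbl 14589 24 = 0 := by decide +kernel
theorem ck782 : checkRange tbl 14613 23 = 0 := by decide +kernel
theorem ck783 : checkRange tbl 14636 21 = 0 := by decide +kernel
theorem ck784 : checkRange tbl 14657 14 = 0 := by decide +kernel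
theorem ck785 : checkRange tbl 14671 19 = 0 := by decide +kernel
theorem ck786 : checkRange tbl 14690 20 = 0 := by decide +kernel
theorem ck787 : checkRange tbl 14710 25 = 0 := by decide +kernel
theorem ck788 : checkRange tbl 14735 27 = 0 := by decide +kernel
theorem ck789 : checkRange tbl 14762 15 = 0 := by decide +kernel
theorem ck790 : checkRange tbl 14777 21 = 0 := by decide +kernel
theorem ck791 : checkRange tbl 14798 24 = 0 := by decide +kernel
theorem ck792 : checkRange tbl 14822 19 = 0 := by decide +kernel
theorem ck793 : checkRange tbl 14841 25 = 0 := by decide +kernel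
theorem ck794 : checkRange tbl 14866 26 = 0 := by decide +kernel
theorem ck795 : checkRange tbl 14892 21 = 0 := by decide +kernel
theorem ck796 : checkRange tbl 14913 21 = 0 := by decide +kernel
theorem ck797 : checkRange tbl 14934 26 = 0 := by decide +kernel
theorem ck798 : checkRange tbl 14960 27 = 0 := by decide +kernel
theorem ck799 : checkRange tbl 14987 25 = 0 := by decide +kernel
theorem ck800 : checkRange tbl 15012 16 = 0 := by decide +kernel
theorem ck801 : checkRange tbl 15028 21 = 0 := by decide +kernel
theorem ck802 : checkRange tbl 15049 27 = 0 := by decide +kernel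
theorem ck803 : checkRange tbl 15076 24 = 0 := by decide +kernel
theorem ck804 : checkRange tbl 15100 26 = 0 := by decide +kernel
theorem ck805 : checkRange tbl 15126 25 = 0 := by decide +kernel
theorem ck806 : checkRange tbl 15151 27 = 0 := by decide +kernel
theorem ck807 : checkRange tbl 15178 28 = 0 := by decide +kernel
theorem ck808 : checkRange tbl 15206 23 = 0 := by decide +kernel
theorem ck809 : checkRange tbl 15229 28 = 0 := by decide +kernel
theorem ck810 : checkRange tbl 15257 26 = 0 := by decide +kernel
theorem ck811 : checkRange tbl 15283 26 = 0 := by decide +kernel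
theorem ck812 : checkRange tbl 15309 30 = 0 := by decide +kernel
theorem ck813 : checkRange tbl 15339 26 = 0 := by decide +kernel
theorem ck814 : checkRange tbl 15365 28 = 0 := by decide +kernel
theorem ck815 : checkRange tbl 15393 30 = 0 := by decide +kernel
theorem ck816 : checkRange tbl 15423 30 = 0 := by decide +kernel
theorem ck817 : checkRange tbl 15453 30 = 0 := by decide +kernel
theorem ck818 : checkRange tbl 15483 30 = 0 := by decide +kernel
theorem ck819 : checkRange tbl 15513 30 = 0 := by decide +kernel
theorem ck820 : checkRange tbl 15543 28 = 0 := by decide +kernel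
theorem ck821 : checkRange tbl 15571 26 = 0 := by decide +kernel
theorem ck822 : checkRange tbl 15597 15 = 0 := by decide +kernel
theorem ck823 : checkRange tbl 15612 12 = 0 := by decide +kernel
theorem ck824 : checkRange tbl 15624 11 = 0 := by decide +kernel
theorem ck825 : checkRange tbl 15635 13 = 0 := by decide +kernel
theorem ck826 : checkRange tbl 15648 12 = 0 := by decide +kernel
theorem ck827 : checkRange tbl 15660 15 = 0 := by decide +kernel
theorem ck828 : checkRange tbl 15675 13 = 0 := by decide +kernel
theorem ck829 : checkRange tbl 15688 12 = 0 := by decide +kernel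
theorem ck830 : checkRange tbl 15700 13 = 0 := by decide +kernel
theorem ck831 : checkRange tbl 15713 14 = 0 := by decide +kernel

theorem rng12 : RangeOK tbl 14276 1451 := RangeOK.join (RangeOK.join (RangeOK.join (RangeOK.join (RangeOK.join (RangeOK.join (RangeOK.of_check ck768) (RangeOK.of_check ck769) (Eq.refl 14297)) (RangeOK.join (RangeOK.of_check ck770) (RangeOK.of_check ck771) (Eq.refl 14342)) (Eq.refl 14319)) (RangeOK.join (RangeOK.join (RangeOK.of_check ck772) (RangeOK.of_check ck773) (Eq.refl 14399)) (RangeOK.join (RangeOK.of_check ck774) (RangeOK.of_check ck775) (Eq.refl 14457)) (Eq.refl 14427)) (Eq.refl 14369)) (RangeOK.join (RangeOK.join (RangeOK.join (RangeOK.of_check ck776) (RangeOK.of_check ck777) (Eq.refl 14499)) (RangeOK.join (RangeOK.of_check ck778) (RangeOK.of_check ck779) (Eq.refl 14537)) (Eq.refl 14515)) (RangeOK.join (RangeOK.join (RangeOK.of_check ck780) (RangeOK.of_check ck781) (Eq.refl 14589)) (RangeOK.join (RangeOK.of_check ck782) (RangeOK.of_check ck783) (Eq.refl 14636)) (Eq.refl 14613)) (Eq.refl 14559)) (Eq.refl 14479)) (RangeOK.join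 (RangeOK.join (RangeOK.join (RangeOK.join (RangeOK.of_check ck784) (RangeOK.of_check ck785) (Eq.refl 14671)) (RangeOK.join (RangeOK.of_check ck786) (RangeOK.of_check ck787) (Eq.refl 14710)) (Eq.refl 14690)) (RangeOK.join (RangeOK.join (RangeOK.of_check ck788) (RangeOK.of_check ck789) (Eq.refl 14762)) (RangeOK.join (RangeOK.of_check ck790) (RangeOK.of_check ck791) (Eq.refl 14798)) (Eq.refl 14777)) (Eq.refl 14735)) (RangeOK.join (RangeOK.join (RangeOK.join (RangeOK.of_check ck792) (RangeOK.of_check ck793) (Eq.refl 14841)) (RangeOK.join (RangeOK.of_check ck794) (RangeOK.of_check ck795) (Eq.refl 14892)) (Eq.refl 14866)) (RangeOK.join (RangeOK.join (RangeOK.of_check ck796) (RangeOK.of_check ck797) (Eq.refl 14934)) (RangeOK.join (RangeOK.of_check ck798) (RangeOK.of_check ck799) (Eq.refl 14987)) (Eq.refl 14960)) (Eq.refl 14913)) (Eq.refl 14822)) (Eq.refl 14657)) (RangeOK.join (RangeOK.join (RangeOK.join (RangeOK.join (RangeOK.join (RangeOK.of_check ck800) (RangeOK.of_check ck801) (Eq.refl 15028)) (RangeOK.join (RangeOK.of_check ck802) (RangeOK.of_check ck803)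 (Eq.refl 15076)) (Eq.refl 15049)) (RangeOK.join (RangeOK.join (RangeOK.of_check ck804) (RangeOK.of_check ck805) (Eq.refl 15126)) (RangeOK.join (RangeOK.of_check ck806) (RangeOK.of_check ck807) (Eq.refl 15178)) (Eq.refl 15151)) (Eq.refl 15100)) (RangeOK.join (RangeOK.join (RangeOK.join (RangeOK.of_check ck808) (RangeOK.of_check ck809) (Eq.refl 15229)) (RangeOK.join (RangeOK.of_check ck810) (RangeOK.of_check ck811) (Eq.refl 15283)) (Eq.refl 15257)) (RangeOK.join (RangeOK.join (RangeOK.of_check ck812) (RangeOK.of_check ck813) (Eq.refl 15339)) (RangeOK.join (RangeOK.of_check ck814) (RangeOK.of_check ck815) (Eq.refl 15393)) (Eq.refl 15365)) (Eq.refl 15309)) (Eq.refl 15206)) (RangeOK.join (RangeOK.join (RangeOK.join (RangeOK.join (RangeOK.of_check ck816) (RangeOK.of_check ck817) (Eq.refl 15453)) (RangeOK.join (RangeOK.of_check ck818) (RangeOK.of_check ck819) (Eq.refl 15513)) (Eq.refl 15483)) (RangeOK.join (RangeOK.join (RangeOK.of_check ck820) (RangeOK.of_check ck821) (Eq.refl 15571)) (RangeOK.join (RangeOK.of_check ck822) (RangeOK.of_check ck823) (Eq.refl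 15612)) (Eq.refl 15597)) (Eq.refl 15543)) (RangeOK.join (RangeOK.join (RangeOK.join (RangeOK.of_check ck824) (RangeOK.of_check ck825) (Eq.refl 15635)) (RangeOK.join (RangeOK.of_check ck826) (RangeOK.of_check ck827) (Eq.refl 15660)) (Eq.refl 15648)) (RangeOK.join (RangeOK.join (RangeOK.of_check ck828) (RangeOK.of_check ck829) (Eq.refl 15688)) (RangeOK.join (RangeOK.of_check ck830) (RangeOK.of_check ck831) (Eq.refl 15713)) (Eq.refl 15700)) (Eq.refl 15675)) (Eq.refl 15624)) (Eq.refl 15423)) (Eq.refl 15012)

end Vale.Agent.Snaky.P2
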