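import Vale.Agent.Snaky.P2.Tbl

namespace Vale.Agent.Snaky.P2

theorem ck832 : checkRange tbl 15727 15 = 0 := by decide +kernel
theorem ck833 : checkRange tbl 15742 14 = 0 := by decide +kernel
theorem ck834 : checkRange tbl 15756 14 = 0 := by decide +kernel
theorem ck835 : checkRange tbl 15770 14 = 0 := by decide +kernel
theorem ck836 : checkRange tbl 15784 16 = 0 := by decide +kernel
theorem ck837 : checkRange tbl 15800 13 = 0 := by decide +kernel
theorem ck838 : checkRange tbl 15813 14 = 0 := by decide +kernel
theorem ck839 : checkRange tbl 15827 13 = 0 := by decide +kernel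
theorem ck840 : checkRange tbl 15840 14 = 0 := by decide +kernel
theorem ck841 : checkRange tbl 15854 11 = 0 := by decide +kernel
theorem ck842 : checkRange tbl 15865 14 = 0 := by decide +kernel
theorem ck843 : checkRange tbl 15879 13 = 0 := by decide +kernel
theorem ck844 : checkRange tbl 15892 15 = 0 := by decide +kernel
theorem ck845 : checkRange tbl 15907 12 = 0 := by decide +kernel
theorem ck846 : checkRange tbl 15919 11 = 0 := by decide +kernel
theorem ck847 : checkRange tbl 15930 12 = 0 := by decide +kernel
theorem ck848 : checkRange tbl 15942 13 = 0 := by decide +kernel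
theorem ck849 : checkRange tbl 15955 15 = 0 := by decide +kernel
theorem ck850 : checkRange tbl 15970 14 = 0 := by decide +kernel
theorem ck851 : checkRange tbl 15984 14 = 0 := by decide +kernel
theorem ck852 : checkRange tbl 15998 12 = 0 := by decide +kernel
theorem ck853 : checkRange tbl 16010 10 = 0 := by decide +kernel
theorem ck854 : checkRange tbl 16020 10 = 0 := by decide +kernel
theorem ck855 : checkRange tbl 16030 13 = 0 := by decide +kernel
theorem ck856 : checkRange tbl 16043 8 = 0 := by decide +kernel
theorem ck857 : checkRange tbl 16051 10 = 0 := by decide +kernel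
theorem ck858 : checkRange tbl 16061 10 = 0 := by decide +kernel
theorem ck859 : checkRange tbl 16071 14 = 0 := by decide +kernel
theorem ck860 : checkRange tbl 16085 16 = 0 := by decide +kernel
theorem ck861 : checkRange tbl 16101 17 = 0 := by decide +kernel
theorem ck862 : checkRange tbl 16118 15 = 0 := by decide +kernel
theorem ck863 : checkRange tbl 16133 14 = 0 := by decide +kernel
theorem ck864 : checkRange tbl 16147 13 = 0 := by decide +kernel
theorem ck865 : checkRange tbl 16160 14 = 0 := by decide +kernel
theorem ck866 : checkRange tbl 16174 15 = 0 := by decide +kernel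
theorem ck867 : checkRange tbl 16189 13 = 0 := by decide +kernel
theorem ck868 : checkRange tbl 16202 14 = 0 := by decide +kernel
theorem ck869 : checkRange tbl 16216 15 = 0 := by decide +kernel
theorem ck870 : checkRange tbl 16231 14 = 0 := by decide +kernel
theorem ck871 : checkRange tbl 16245 15 = 0 := by decide +kernel
theorem ck872 : checkRange tbl 16260 14 = 0 := by decide +kernel
theorem ck873 : checkRange tbl 16274 13 = 0 := by decide +kernel
theorem ck874 : checkRange tbl 16287 13 = 0 := by decide +kernel
theorem ck875 : checkRange tbl 16300 15 = 0 := by decide +kernel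
theorem ck876 : checkRange tbl 16315 18 = 0 := by decide +kernel
theorem ck877 : checkRange tbl 16333 14 = 0 := by decide +kernel
theorem ck878 : checkRange tbl 16347 18 = 0 := by decide +kernel
theorem ck879 : checkRange tbl 16365 18 = 0 := by decide +kernel
theorem ck880 : checkRange tbl 16383 14 = 0 := by decide +kernel
theorem ck881 : checkRange tbl 16397 15 = 0 := by decide +kernel
theorem ck882 : checkRange tbl 16412 15 = 0 := by decide +kernel
theorem ck883 : checkRange tbl 16427 14 = 0 := by decide +kernel
theorem ck884 : checkRange tbl 16441 17 = 0 := by decide +kernel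
theorem ck885 : checkRange tbl 16458 15 = 0 := by decide +kernel
theorem ck886 : checkRange tbl 16473 15 = 0 := by decide +kernel
theorem ck887 : checkRange tbl 16488 15 = 0 := by decide +kernel
theorem ck888 : checkRange tbl 16503 17 = 0 := by decide +kernel
theorem ck889 : checkRange tbl 16520 17 = 0 := by decide +kernel
theorem ck890 : checkRange tbl 16537 16 = 0 := by decide +kernel
theorem ck891 : checkRange tbl 16553 16 = 0 := by decide +kernel
theorem ck892 : checkRange tbl 16569 17 = 0 := by decide +kernel
theorem ck893 : checkRange tbl 16586 17 = 0 := by decide +kernel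
theorem ck894 : checkRange tbl 16603 16 = 0 := by decide +kernel
theorem ck895 : checkRange tbl 16619 17 = 0 := by decide +kernel

theorem rng13 : RangeOK tbl 15727 909 := RangeOK.join (RangeOK.join (RangeOK.join (RangeOK.join (RangeOK.join (RangeOK.join (RangeOK.of_check ck832) (RangeOK.of_check ck833) (Eq.refl 15742)) (RangeOK.join (RangeOK.of_check ck834) (RangeOK.of_check ck835) (Eq.refl 15770)) (Eq.refl 15756)) (RangeOK.join (RangeOK.join (RangeOK.of_check ck836) (RangeOK.of_check ck837) (Eq.refl 15800)) (RangeOK.join (RangeOK.of_check ck838) (RangeOK.of_check ck839) (Eq.refl 15827)) (Eq.refl 15813)) (Eq.refl 15784)) (RangeOK.join (RangeOK.join (RangeOK.join (RangeOK.of_check ck840) (RangeOK.of_check ck841) (Eq.refl 15854)) (RangeOK.join (RangeOK.of_check ck842) (RangeOK.of_check ck843) (Eq.refl 15879)) (Eq.refl 15865)) (RangeOK.join (RangeOK.join (RangeOK.of_check ck844) (RangeOK.of_check ck845) (Eq.refl 15907)) (RangeOK.join (RangeOK.of_check ck846) (RangeOK.of_check ck847) (Eq.refl 15930)) (Eq.refl 15919)) (Eq.refl 15892)) (Eq.refl 15840)) (RangeOK.join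 (RangeOK.join (RangeOK.join (RangeOK.join (RangeOK.of_check ck848) (RangeOK.of_check ck849) (Eq.refl 15955)) (RangeOK.join (RangeOK.of_check ck850) (RangeOK.of_check ck851) (Eq.refl 15984)) (Eq.refl 15970)) (RangeOK.join (RangeOK.join (RangeOK.of_check ck852) (RangeOK.of_check ck853) (Eq.refl 16010)) (RangeOK.join (RangeOK.of_check ck854) (RangeOK.of_check ck855) (Eq.refl 16030)) (Eq.refl 16020)) (Eq.refl 15998)) (RangeOK.join (RangeOK.join (RangeOK.join (RangeOK.of_check ck856) (RangeOK.of_check ck857) (Eq.refl 16051)) (RangeOK.join (RangeOK.of_check ck858) (RangeOK.of_check ck859) (Eq.refl 16071)) (Eq.refl 16061)) (RangeOK.join (RangeOK.join (RangeOK.of_check ck860) (RangeOK.of_check ck861) (Eq.refl 16101)) (RangeOK.join (RangeOK.of_check ck862) (RangeOK.of_check ck863) (Eq.refl 16133)) (Eq.refl 16118)) (Eq.refl 16085)) (Eq.refl 16043)) (Eq.refl 15942)) (RangeOK.join (RangeOK.join (RangeOK.join (RangeOK.join (RangeOK.join (RangeOK.of_check ck864) (RangeOK.of_check ck865) (Eq.refl 16160)) (RangeOK.join (RangeOK.of_check ck866) (RangeOK.of_check ck867)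 (Eq.refl 16189)) (Eq.refl 16174)) (RangeOK.join (RangeOK.join (RangeOK.of_check ck868) (RangeOK.of_check ck869) (Eq.refl 16216)) (RangeOK.join (RangeOK.of_check ck870) (RangeOK.of_check ck871) (Eq.refl 16245)) (Eq.refl 16231)) (Eq.refl 16202)) (RangeOK.join (RangeOK.join (RangeOK.join (RangeOK.of_check ck872) (RangeOK.of_check ck873) (Eq.refl 16274)) (RangeOK.join (RangeOK.of_check ck874) (RangeOK.of_check ck875) (Eq.refl 16300)) (Eq.refl 16287)) (RangeOK.join (RangeOK.join (RangeOK.of_check ck876) (RangeOK.of_check ck877) (Eq.refl 16333)) (RangeOK.join (RangeOK.of_check ck878) (RangeOK.of_check ck879) (Eq.refl 16365)) (Eq.refl 16347)) (Eq.refl 16315)) (Eq.refl 16260)) (RangeOK.join (RangeOK.join (RangeOK.join (RangeOK.join (RangeOK.of_check ck880) (RangeOK.of_check ck881) (Eq.refl 16397)) (RangeOK.join (RangeOK.of_check ck882) (RangeOK.of_check ck883) (Eq.refl 16427)) (Eq.refl 16412)) (RangeOK.join (RangeOK.join (RangeOK.of_check ck884) (RangeOK.of_check ck885) (Eq.refl 16458)) (RangeOK.join (RangeOK.of_check ck886) (RangeOK.of_check ck887) (Eq.refl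 16488)) (Eq.refl 16473)) (Eq.refl 16441)) (RangeOK.join (RangeOK.join (RangeOK.join (RangeOK.of_check ck888) (RangeOK.of_check ck889) (Eq.refl 16520)) (RangeOK.join (RangeOK.of_check ck890) (RangeOK.of_check ck891) (Eq.refl 16553)) (Eq.refl 16537)) (RangeOK.join (RangeOK.join (RangeOK.of_check ck892) (RangeOK.of_check ck893) (Eq.refl 16586)) (RangeOK.join (RangeOK.of_check ck894) (RangeOK.of_check ck895) (Eq.refl 16619)) (Eq.refl 16603)) (Eq.refl 16569)) (Eq.refl 16503)) (Eq.refl 16383)) (Eq.refl 16147)

end Vale.Agent.Snaky.P2
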