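import Vale.Agent.Snaky.P2.Tbl

namespace Vale.Agent.Snaky.P2

theorem ck896 : checkRange tbl 16636 16 = 0 := by decide +kernel
theorem ck897 : checkRange tbl 16652 13 = 0 := by decide +kernel
theorem ck898 : checkRange tbl 16665 16 = 0 := by decide +kernel
theorem ck899 : checkRange tbl 16681 14 = 0 := by decide +kernel
theorem ck900 : checkRange tbl 16695 17 = 0 := by decide +kernel
theorem ck901 : checkRange tbl 16712 13 = 0 := by decide +kernel
theorem ck902 : checkRange tbl 16725 15 = 0 := by decide +kernel
theorem ck903 : checkRange tbl 16740 16 = 0 := by decide +kernel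
theorem ck904 : checkRange tbl 16756 13 = 0 := by decide +kernel
theorem ck905 : checkRange tbl 16769 14 = 0 := by decide +kernel
theorem ck906 : checkRange tbl 16783 14 = 0 := by decide +kernel
theorem ck907 : checkRange tbl 16797 17 = 0 := by decide +kernel
theorem ck908 : checkRange tbl 16814 17 = 0 := by decide +kernel
theorem ck909 : checkRange tbl 16831 12 = 0 := by decide +kernel
theorem ck910 : checkRange tbl 16843 13 = 0 := by decide +kernel
theorem ck911 : checkRange tbl 16856 18 = 0 := by decide +kernel
theorem ck912 : checkRange tbl 16874 17 = 0 := by decide +kernel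
theorem ck913 : checkRange tbl 16891 15 = 0 := by decide +kernel
theorem ck914 : checkRange tbl 16906 15 = 0 := by decide +kernel
theorem ck915 : checkRange tbl 16921 15 = 0 := by decide +kernel
theorem ck916 : checkRange tbl 16936 15 = 0 := by decide +kernel
theorem ck917 : checkRange tbl 16951 12 = 0 := by decide +kernel
theorem ck918 : checkRange tbl 16963 15 = 0 := by decide +kernel
theorem ck919 : checkRange tbl 16978 11 = 0 := by decide +kernel
theorem ck920 : checkRange tbl 16989 14 = 0 := by decide +kernel
theorem ck921 : checkRange tbl 17003 11 = 0 := by decide +kernel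
theorem ck922 : checkRange tbl 17014 9 = 0 := by decide +kernel
theorem ck923 : checkRange tbl 17023 10 = 0 := by decide +kernel
theorem ck924 : checkRange tbl 17033 9 = 0 := by decide +kernel
theorem ck925 : checkRange tbl 17042 8 = 0 := by decide +kernel
theorem ck926 : checkRange tbl 17050 8 = 0 := by decide +kernel
theorem ck927 : checkRange tbl 17058 9 = 0 := by decide +kernel
theorem ck928 : checkRange tbl 17067 11 = 0 := by decide +kernel
theorem ck929 : checkRange tbl 17078 13 = 0 := by decide +kernel
theorem ck930 : checkRange tbl 17091 13 = 0 := by decide +kernel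
theorem ck931 : checkRange tbl 17104 17 = 0 := by decide +kernel
theorem ck932 : checkRange tbl 17121 10 = 0 := by decide +kernel
theorem ck933 : checkRange tbl 17131 11 = 0 := by decide +kernel
theorem ck934 : checkRange tbl 17142 13 = 0 := by decide +kernel
theorem ck935 : checkRange tbl 17155 11 = 0 := by decide +kernel
theorem ck936 : checkRange tbl 17166 9 = 0 := by decide +kernel
theorem ck937 : checkRange tbl 17175 10 = 0 := by decide +kernel
theorem ck938 : checkRange tbl 17185 11 = 0 := by decide +kernel
theorem ck939 : checkRange tbl 17196 15 = 0 := by decide +kernel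
theorem ck940 : checkRange tbl 17211 13 = 0 := by decide +kernel
theorem ck941 : checkRange tbl 17224 22 = 0 := by decide +kernel
theorem ck942 : checkRange tbl 17246 16 = 0 := by decide +kernel
theorem ck943 : checkRange tbl 17262 15 = 0 := by decide +kernel
theorem ck944 : checkRange tbl 17277 10 = 0 := by decide +kernel
theorem ck945 : checkRange tbl 17287 14 = 0 := by decide +kernel
theorem ck946 : checkRange tbl 17301 17 = 0 := by decide +kernel
theorem ck947 : checkRange tbl 17318 20 = 0 := by decide +kernel
theorem ck948 : checkRange tbl 17338 17 = 0 := by decide +kernel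
theorem ck949 : checkRange tbl 17355 20 = 0 := by decide +kernel
theorem ck950 : checkRange tbl 17375 17 = 0 := by decide +kernel
theorem ck951 : checkRange tbl 17392 23 = 0 := by decide +kernel
theorem ck952 : checkRange tbl 17415 15 = 0 := by decide +kernel
theorem ck953 : checkRange tbl 17430 16 = 0 := by decide +kernel
theorem ck954 : checkRange tbl 17446 20 = 0 := by decide +kernel
theorem ck955 : checkRange tbl 17466 15 = 0 := by decide +kernel
theorem ck956 : checkRange tbl 17481 20 = 0 := by decide +kernel
theorem ck957 : checkRange tbl 17501 27 = 0 := by decide +kernel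
theorem ck958 : checkRange tbl 17528 30 = 0 := by decide +kernel
theorem ck959 : checkRange tbl 17558 21 = 0 := by decide +kernel

theorem rng14 : RangeOK tbl 16636 943 := RangeOK.join (RangeOK.join (RangeOK.join (RangeOK.join (RangeOK.join (RangeOK.join (RangeOK.of_check ck896) (RangeOK.of_check ck897) (Eq.refl 16652)) (RangeOK.join (RangeOK.of_check ck898) (RangeOK.of_check ck899) (Eq.refl 16681)) (Eq.refl 16665)) (RangeOK.join (RangeOK.join (RangeOK.of_check ck900) (RangeOK.of_check ck901) (Eq.refl 16712)) (RangeOK.join (RangeOK.of_check ck902) (RangeOK.of_check ck903) (Eq.refl 16740)) (Eq.refl 16725)) (Eq.refl 16695)) (RangeOK.join (RangeOK.join (RangeOK.join (RangeOK.of_check ck904) (RangeOK.of_check ck905) (Eq.refl 16769)) (RangeOK.join (RangeOK.of_check ck906) (RangeOK.of_check ck907) (Eq.refl 16797)) (Eq.refl 16783)) (RangeOK.join (RangeOK.join (RangeOK.of_check ck908) (RangeOK.of_check ck909) (Eq.refl 16831)) (RangeOK.join (RangeOK.of_check ck910) (RangeOK.of_check ck911) (Eq.refl 16856)) (Eq.refl 16843)) (Eq.refl 16814)) (Eq.refl 16756)) (RangeOK.join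 (RangeOK.join (RangeOK.join (RangeOK.join (RangeOK.of_check ck912) (RangeOK.of_check ck913) (Eq.refl 16891)) (RangeOK.join (RangeOK.of_check ck914) (RangeOK.of_check ck915) (Eq.refl 16921)) (Eq.refl 16906)) (RangeOK.join (RangeOK.join (RangeOK.of_check ck916) (RangeOK.of_check ck917) (Eq.refl 16951)) (RangeOK.join (RangeOK.of_check ck918) (RangeOK.of_check ck919) (Eq.refl 16978)) (Eq.refl 16963)) (Eq.refl 16936)) (RangeOK.join (RangeOK.join (RangeOK.join (RangeOK.of_check ck920) (RangeOK.of_check ck921) (Eq.refl 17003)) (RangeOK.join (RangeOK.of_check ck922) (RangeOK.of_check ck923) (Eq.refl 17023)) (Eq.refl 17014)) (RangeOK.join (RangeOK.join (RangeOK.of_check ck924) (RangeOK.of_check ck925) (Eq.refl 17042)) (RangeOK.join (RangeOK.of_check ck926) (RangeOK.of_check ck927) (Eq.refl 17058)) (Eq.refl 17050)) (Eq.refl 17033)) (Eq.refl 16989)) (Eq.refl 16874)) (RangeOK.join (RangeOK.join (RangeOK.join (RangeOK.join (RangeOK.join (RangeOK.of_check ck928) (RangeOK.of_check ck929) (Eq.refl 17078)) (RangeOK.join (RangeOK.of_check ck930) (RangeOK.of_check ck931)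 (Eq.refl 17104)) (Eq.refl 17091)) (RangeOK.join (RangeOK.join (RangeOK.of_check ck932) (RangeOK.of_check ck933) (Eq.refl 17131)) (RangeOK.join (RangeOK.of_check ck934) (RangeOK.of_check ck935) (Eq.refl 17155)) (Eq.refl 17142)) (Eq.refl 17121)) (RangeOK.join (RangeOK.join (RangeOK.join (RangeOK.of_check ck936) (RangeOK.of_check ck937) (Eq.refl 17175)) (RangeOK.join (RangeOK.of_check ck938) (RangeOK.of_check ck939) (Eq.refl 17196)) (Eq.refl 17185)) (RangeOK.join (RangeOK.join (RangeOK.of_check ck940) (RangeOK.of_check ck941) (Eq.refl 17224)) (RangeOK.join (RangeOK.of_check ck942) (RangeOK.of_check ck943) (Eq.refl 17262)) (Eq.refl 17246)) (Eq.refl 17211)) (Eq.refl 17166)) (RangeOK.join (RangeOK.join (RangeOK.join (RangeOK.join (RangeOK.of_check ck944) (RangeOK.of_check ck945) (Eq.refl 17287)) (RangeOK.join (RangeOK.of_check ck946) (RangeOK.of_check ck947) (Eq.refl 17318)) (Eq.refl 17301)) (RangeOK.join (RangeOK.join (RangeOK.of_check ck948) (RangeOK.of_check ck949) (Eq.refl 17355)) (RangeOK.join (RangeOK.of_check ck950) (RangeOK.of_check ck951) (Eq.refl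 17392)) (Eq.refl 17375)) (Eq.refl 17338)) (RangeOK.join (RangeOK.join (RangeOK.join (RangeOK.of_check ck952) (RangeOK.of_check ck953) (Eq.refl 17430)) (RangeOK.join (RangeOK.of_check ck954) (RangeOK.of_check ck955) (Eq.refl 17466)) (Eq.refl 17446)) (RangeOK.join (RangeOK.join (RangeOK.of_check ck956) (RangeOK.of_check ck957) (Eq.refl 17501)) (RangeOK.join (RangeOK.of_check ck958) (RangeOK.of_check ck959) (Eq.refl 17558)) (Eq.refl 17528)) (Eq.refl 17481)) (Eq.refl 17415)) (Eq.refl 17277)) (Eq.refl 17067)

end Vale.Agent.Snaky.P2
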