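import Vale.Agent.Snaky.P2.Tbl

namespace Vale.Agent.Snaky.P2

theorem ck960 : checkRange tbl 17579 17 = 0 := by decide +kernel
theorem ck961 : checkRange tbl 17596 23 = 0 := by decide +kernel
theorem ck962 : checkRange tbl 17619 21 = 0 := by decide +kernel
theorem ck963 : checkRange tbl 17640 18 = 0 := by decide +kernel
theorem ck964 : checkRange tbl 17658 22 = 0 := by decide +kernel
theorem ck965 : checkRange tbl 17680 27 = 0 := by decide +kernel
theorem ck966 : checkRange tbl 17707 28 = 0 := by decide +kernel
theorem ck967 : checkRange tbl 17735 21 = 0 := by decide +kernel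
theorem ck968 : checkRange tbl 17756 18 = 0 := by decide +kernel
theorem ck969 : checkRange tbl 17774 19 = 0 := by decide +kernel
theorem ck970 : checkRange tbl 17793 30 = 0 := by decide +kernel
theorem ck971 : checkRange tbl 17823 30 = 0 := by decide +kernel
theorem ck972 : checkRange tbl 17853 22 = 0 := by decide +kernel
theorem ck973 : checkRange tbl 17875 19 = 0 := by decide +kernel
theorem ck974 : checkRange tbl 17894 19 = 0 := by decide +kernel
theorem ck975 : checkRange tbl 17913 18 = 0 := by decide +kernel
theorem ck976 : checkRange tbl 17931 25 = 0 := by decide +kernel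
theorem ck977 : checkRange tbl 17956 25 = 0 := by decide +kernel
theorem ck978 : checkRange tbl 17981 15 = 0 := by decide +kernel
theorem ck979 : checkRange tbl 17996 22 = 0 := by decide +kernel
theorem ck980 : checkRange tbl 18018 23 = 0 := by decide +kernel
theorem ck981 : checkRange tbl 18041 21 = 0 := by decide +kernel
theorem ck982 : checkRange tbl 18062 19 = 0 := by decide +kernel
theorem ck983 : checkRange tbl 18081 22 = 0 := by decide +kernel
theorem ck984 : checkRange tbl 18103 26 = 0 := by decide +kernel
theorem ck985 : checkRange tbl 18129 26 = 0 := by decide +kernel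
theorem ck986 : checkRange tbl 18155 23 = 0 := by decide +kernel
theorem ck987 : checkRange tbl 18178 22 = 0 := by decide +kernel
theorem ck988 : checkRange tbl 18200 23 = 0 := by decide +kernel
theorem ck989 : checkRange tbl 18223 20 = 0 := by decide +kernel
theorem ck990 : checkRange tbl 18243 25 = 0 := by decide +kernel
theorem ck991 : checkRange tbl 18268 27 = 0 := by decide +kernel
theorem ck992 : checkRange tbl 18295 23 = 0 := by decide +kernel
theorem ck993 : checkRange tbl 18318 25 = 0 := by decide +kernel
theorem ck994 : checkRange tbl 18343 28 = 0 := by decide +kernel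
theorem ck995 : checkRange tbl 18371 22 = 0 := by decide +kernel
theorem ck996 : checkRange tbl 18393 27 = 0 := by decide +kernel
theorem ck997 : checkRange tbl 18420 28 = 0 := by decide +kernel
theorem ck998 : checkRange tbl 18448 30 = 0 := by decide +kernel
theorem ck999 : checkRange tbl 18478 30 = 0 := by decide +kernel
theorem ck1000 : checkRange tbl 18508 30 = 0 := by decide +kernel
theorem ck1001 : checkRange tbl 18538 30 = 0 := by decide +kernel
theorem ck1002 : checkRange tbl 18568 28 = 0 := by decide +kernel
theorem ck1003 : checkRange tbl 18596 30 = 0 := by decide +kernel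
theorem ck1004 : checkRange tbl 18626 30 = 0 := by decide +kernel
theorem ck1005 : checkRange tbl 18656 30 = 0 := by decide +kernel
theorem ck1006 : checkRange tbl 18686 25 = 0 := by decide +kernel
theorem ck1007 : checkRange tbl 18711 11 = 0 := by decide +kernel
theorem ck1008 : checkRange tbl 18722 6 = 0 := by decide +kernel
theorem ck1009 : checkRange tbl 18728 6 = 0 := by decide +kernel
theorem ck1010 : checkRange tbl 18734 8 = 0 := by decide +kernel
theorem ck1011 : checkRange tbl 18742 10 = 0 := by decide +kernel
theorem ck1012 : checkRange tbl 18752 11 = 0 := by decide +kernel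
theorem ck1013 : checkRange tbl 18763 10 = 0 := by decide +kernel
theorem ck1014 : checkRange tbl 18773 8 = 0 := by decide +kernel
theorem ck1015 : checkRange tbl 18781 9 = 0 := by decide +kernel
theorem ck1016 : checkRange tbl 18790 10 = 0 := by decide +kernel
theorem ck1017 : checkRange tbl 18800 12 = 0 := by decide +kernel
theorem ck1018 : checkRange tbl 18812 10 = 0 := by decide +kernel
theorem ck1019 : checkRange tbl 18822 11 = 0 := by decide +kernel
theorem ck1020 : checkRange tbl 18833 11 = 0 := by decide +kernel
theorem ck1021 : checkRange tbl 18844 7 = 0 := by decide +kernel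
theorem ck1022 : checkRange tbl 18851 8 = 0 := by decide +kernel
theorem ck1023 : checkRange tbl 18859 12 = 0 := by decide +kernel

theorem rng15 : RangeOK tbl 17579 1292 := RangeOK.join (RangeOK.join (RangeOK.join (RangeOK.join (RangeOK.join (RangeOK.join (RangeOK.of_check ck960) (RangeOK.of_check ck961) (Eq.refl 17596)) (RangeOK.join (RangeOK.of_check ck962) (RangeOK.of_check ck963) (Eq.refl 17640)) (Eq.refl 17619)) (RangeOK.join (RangeOK.join (RangeOK.of_check ck964) (RangeOK.of_check ck965) (Eq.refl 17680)) (RangeOK.join (RangeOK.of_check ck966) (RangeOK.of_check ck967) (Eq.refl 17735)) (Eq.refl 17707)) (Eq.refl 17658)) (RangeOK.join (RangeOK.join (RangeOK.join (RangeOK.of_check ck968) (RangeOK.of_check ck969) (Eq.refl 17774)) (RangeOK.join (RangeOK.of_check ck970) (RangeOK.of_check ck971) (Eq.refl 17823)) (Eq.refl 17793)) (RangeOK.join (RangeOK.join (RangeOK.of_check ck972) (RangeOK.of_check ck973) (Eq.refl 17875)) (RangeOK.join (RangeOK.of_check ck974) (RangeOK.of_check ck975) (Eq.refl 17913)) (Eq.refl 17894)) (Eq.refl 17853)) (Eq.refl 17756))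 (RangeOK.join (RangeOK.join (RangeOK.join (RangeOK.join (RangeOK.of_check ck976) (RangeOK.of_check ck977) (Eq.refl 17956)) (RangeOK.join (RangeOK.of_check ck978) (RangeOK.of_check ck979) (Eq.refl 17996)) (Eq.refl 17981)) (RangeOK.join (RangeOK.join (RangeOK.of_check ck980) (RangeOK.of_check ck981) (Eq.refl 18041)) (RangeOK.join (RangeOK.of_check ck982) (RangeOK.of_check ck983) (Eq.refl 18081)) (Eq.refl 18062)) (Eq.refl 18018)) (RangeOK.join (RangeOK.join (RangeOK.join (RangeOK.of_check ck984) (RangeOK.of_check ck985) (Eq.refl 18129)) (RangeOK.join (RangeOK.of_check ck986) (RangeOK.of_check ck987) (Eq.refl 18178)) (Eq.refl 18155)) (RangeOK.join (RangeOK.join (RangeOK.of_check ck988) (RangeOK.of_check ck989) (Eq.refl 18223)) (RangeOK.join (RangeOK.of_check ck990) (RangeOK.of_check ck991) (Eq.refl 18268)) (Eq.refl 18243)) (Eq.refl 18200)) (Eq.refl 18103)) (Eq.refl 17931)) (RangeOK.join (RangeOK.join (RangeOK.join (RangeOK.join (RangeOK.join (RangeOK.of_check ck992) (RangeOK.of_check ck993) (Eq.refl 18318)) (RangeOK.join (RangeOK.of_check ck994) (RangeOK.of_check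 ck995) (Eq.refl 18371)) (Eq.refl 18343)) (RangeOK.join (RangeOK.join (RangeOK.of_check ck996) (RangeOK.of_check ck997) (Eq.refl 18420)) (RangeOK.join (RangeOK.of_check ck998) (RangeOK.of_check ck999) (Eq.refl 18478)) (Eq.refl 18448)) (Eq.refl 18393)) (RangeOK.join (RangeOK.join (RangeOK.join (RangeOK.of_check ck1000) (RangeOK.of_check ck1001) (Eq.refl 18538)) (RangeOK.join (RangeOK.of_check ck1002) (RangeOK.of_check ck1003) (Eq.refl 18596)) (Eq.refl 18568)) (RangeOK.join (RangeOK.join (RangeOK.of_check ck1004) (RangeOK.of_check ck1005) (Eq.refl 18656)) (RangeOK.join (RangeOK.of_check ck1006) (RangeOK.of_check ck1007) (Eq.refl 18711)) (Eq.refl 18686)) (Eq.refl 18626)) (Eq.refl 18508)) (RangeOK.join (RangeOK.join (RangeOK.join (RangeOK.join (RangeOK.of_check ck1008) (RangeOK.of_check ck1009) (Eq.refl 18728)) (RangeOK.join (RangeOK.of_check ck1010) (RangeOK.of_check ck1011) (Eq.refl 18742)) (Eq.refl 18734)) (RangeOK.join (RangeOK.join (RangeOK.of_check ck1012) (RangeOK.of_check ck1013) (Eq.refl 18763)) (RangeOK.join (RangeOK.of_check ck1014) (RangeOK.of_check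 ck1015) (Eq.refl 18781)) (Eq.refl 18773)) (Eq.refl 18752)) (RangeOK.join (RangeOK.join (RangeOK.join (RangeOK.of_check ck1016) (RangeOK.of_check ck1017) (Eq.refl 18800)) (RangeOK.join (RangeOK.of_check ck1018) (RangeOK.of_check ck1019) (Eq.refl 18822)) (Eq.refl 18812)) (RangeOK.join (RangeOK.join (RangeOK.of_check ck1020) (RangeOK.of_check ck1021) (Eq.refl 18844)) (RangeOK.join (RangeOK.of_check ck1022) (RangeOK.of_check ck1023) (Eq.refl 18859)) (Eq.refl 18851)) (Eq.refl 18833)) (Eq.refl 18790)) (Eq.refl 18722)) (Eq.refl 18295)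

end Vale.Agent.Snaky.P2
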