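import Vale.Agent.Snaky.P2.Tbl

namespace Vale.Agent.Snaky.P2

theorem ck1024 : checkRange tbl 18871 8 = 0 := by decide +kernel
theorem ck1025 : checkRange tbl 18879 11 = 0 := by decide +kernel
theorem ck1026 : checkRange tbl 18890 7 = 0 := by decide +kernel
theorem ck1027 : checkRange tbl 18897 9 = 0 := by decide +kernel
theorem ck1028 : checkRange tbl 18906 11 = 0 := by decide +kernel
theorem ck1029 : checkRange tbl 18917 11 = 0 := by decide +kernel
theorem ck1030 : checkRange tbl 18928 11 = 0 := by decide +kernel
theorem ck1031 : checkRange tbl 18939 10 = 0 := by decide +kernel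
theorem ck1032 : checkRange tbl 18949 12 = 0 := by decide +kernel
theorem ck1033 : checkRange tbl 18961 11 = 0 := by decide +kernel
theorem ck1034 : checkRange tbl 18972 11 = 0 := by decide +kernel
theorem ck1035 : checkRange tbl 18983 11 = 0 := by decide +kernel
theorem ck1036 : checkRange tbl 18994 10 = 0 := by decide +kernel
theorem ck1037 : checkRange tbl 19004 11 = 0 := by decide +kernel
theorem ck1038 : checkRange tbl 19015 11 = 0 := by decide +kernel
theorem ck1039 : checkRange tbl 19026 10 = 0 := by decide +kernel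
theorem ck1040 : checkRange tbl 19036 9 = 0 := by decide +kernel
theorem ck1041 : checkRange tbl 19045 11 = 0 := by decide +kernel
theorem ck1042 : checkRange tbl 19056 11 = 0 := by decide +kernel
theorem ck1043 : checkRange tbl 19067 10 = 0 := by decide +kernel
theorem ck1044 : checkRange tbl 19077 12 = 0 := by decide +kernel
theorem ck1045 : checkRange tbl 19089 10 = 0 := by decide +kernel
theorem ck1046 : checkRange tbl 19099 11 = 0 := by decide +kernel
theorem ck1047 : checkRange tbl 19110 7 = 0 := by decide +kernel
theorem ck1048 : checkRange tbl 19117 11 = 0 := by decide +kernel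
theorem ck1049 : checkRange tbl 19128 12 = 0 := by decide +kernel
theorem ck1050 : checkRange tbl 19140 13 = 0 := by decide +kernel
theorem ck1051 : checkRange tbl 19153 11 = 0 := by decide +kernel
theorem ck1052 : checkRange tbl 19164 10 = 0 := by decide +kernel
theorem ck1053 : checkRange tbl 19174 10 = 0 := by decide +kernel
theorem ck1054 : checkRange tbl 19184 11 = 0 := by decide +kernel
theorem ck1055 : checkRange tbl 19195 10 = 0 := by decide +kernel
theorem ck1056 : checkRange tbl 19205 13 = 0 := by decide +kernel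
theorem ck1057 : checkRange tbl 19218 13 = 0 := by decide +kernel
theorem ck1058 : checkRange tbl 19231 14 = 0 := by decide +kernel
theorem ck1059 : checkRange tbl 19245 15 = 0 := by decide +kernel
theorem ck1060 : checkRange tbl 19260 13 = 0 := by decide +kernel
theorem ck1061 : checkRange tbl 19273 15 = 0 := by decide +kernel
theorem ck1062 : checkRange tbl 19288 15 = 0 := by decide +kernel
theorem ck1063 : checkRange tbl 19303 12 = 0 := by decide +kernel
theorem ck1064 : checkRange tbl 19315 15 = 0 := by decide +kernel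
theorem ck1065 : checkRange tbl 19330 13 = 0 := by decide +kernel
theorem ck1066 : checkRange tbl 19343 13 = 0 := by decide +kernel
theorem ck1067 : checkRange tbl 19356 15 = 0 := by decide +kernel
theorem ck1068 : checkRange tbl 19371 16 = 0 := by decide +kernel
theorem ck1069 : checkRange tbl 19387 17 = 0 := by decide +kernel
theorem ck1070 : checkRange tbl 19404 15 = 0 := by decide +kernel
theorem ck1071 : checkRange tbl 19419 18 = 0 := by decide +kernel
theorem ck1072 : checkRange tbl 19437 16 = 0 := by decide +kernel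
theorem ck1073 : checkRange tbl 19453 17 = 0 := by decide +kernel
theorem ck1074 : checkRange tbl 19470 15 = 0 := by decide +kernel
theorem ck1075 : checkRange tbl 19485 16 = 0 := by decide +kernel
theorem ck1076 : checkRange tbl 19501 15 = 0 := by decide +kernel
theorem ck1077 : checkRange tbl 19516 16 = 0 := by decide +kernel
theorem ck1078 : checkRange tbl 19532 14 = 0 := by decide +kernel
theorem ck1079 : checkRange tbl 19546 16 = 0 := by decide +kernel
theorem ck1080 : checkRange tbl 19562 14 = 0 := by decide +kernel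
theorem ck1081 : checkRange tbl 19576 15 = 0 := by decide +kernel
theorem ck1082 : checkRange tbl 19591 14 = 0 := by decide +kernel
theorem ck1083 : checkRange tbl 19605 16 = 0 := by decide +kernel
theorem ck1084 : checkRange tbl 19621 16 = 0 := by decide +kernel
theorem ck1085 : checkRange tbl 19637 13 = 0 := by decide +kernel
theorem ck1086 : checkRange tbl 19650 13 = 0 := by decide +kernel
theorem ck1087 : checkRange tbl 19663 11 = 0 := by decide +kernel

theorem rng16 : RangeOK tbl 18871 803 := RangeOK.join (RangeOK.join (RangeOK.join (RangeOK.join (RangeOK.join (RangeOK.join (RangeOK.of_check ck1024) (RangeOK.of_check ck1025) (Eq.refl 18879)) (RangeOK.join (RangeOK.of_check ck1026) (RangeOK.of_check ck1027) (Eq.refl 18897)) (Eq.refl 18890)) (RangeOK.join (RangeOK.join (RangeOK.of_check ck1028) (RangeOK.of_check ck1029) (Eq.refl 18917)) (RangeOK.join (RangeOK.of_check ck1030) (RangeOK.of_check ck1031) (Eq.refl 18939)) (Eq.refl 18928)) (Eq.refl 18906)) (RangeOK.join (RangeOK.join (RangeOK.join (RangeOK.of_check ck1032) (RangeOK.of_check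 ck1033) (Eq.refl 18961)) (RangeOK.join (RangeOK.of_check ck1034) (RangeOK.of_check ck1035) (Eq.refl 18983)) (Eq.refl 18972)) (RangeOK.join (RangeOK.join (RangeOK.of_check ck1036) (RangeOK.of_check ck1037) (Eq.refl 19004)) (RangeOK.join (RangeOK.of_check ck1038) (RangeOK.of_check ck1039) (Eq.refl 19026)) (Eq.refl 19015)) (Eq.refl 18994)) (Eq.refl 18949)) (RangeOK.join (RangeOK.join (RangeOK.join (RangeOK.join (RangeOK.of_check ck1040) (RangeOK.of_check ck1041) (Eq.refl 19045)) (RangeOK.join (RangeOK.of_check ck1042) (RangeOK.of_check ck1043) (Eq.refl 19067)) (Eq.refl 19056)) (RangeOK.join (RangeOK.join (RangeOK.of_check ck1044) (RangeOK.of_check ck1045) (Eq.refl 19089)) (RangeOK.join (RangeOK.of_check ck1046) (RangeOK.of_check ck1047) (Eq.refl 19110)) (Eq.refl 19099)) (Eq.refl 19077)) (RangeOK.join (RangeOK.join (RangeOK.join (RangeOK.of_check ck1048) (RangeOK.of_check ck1049) (Eq.refl 19128)) (RangeOK.join (RangeOK.of_check ck1050) (RangeOK.of_check ck1051) (Eq.refl 19153)) (Eq.refl 19140)) (RangeOK.join (RangeOK.join (RangeOK.of_check ck1052)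 (RangeOK.of_check ck1053) (Eq.refl 19174)) (RangeOK.join (RangeOK.of_check ck1054) (RangeOK.of_check ck1055) (Eq.refl 19195)) (Eq.refl 19184)) (Eq.refl 19164)) (Eq.refl 19117)) (Eq.refl 19036)) (RangeOK.join (RangeOK.join (RangeOK.join (RangeOK.join (RangeOK.join (RangeOK.of_check ck1056) (RangeOK.of_check ck1057) (Eq.refl 19218)) (RangeOK.join (RangeOK.of_check ck1058) (RangeOK.of_check ck1059) (Eq.refl 19245)) (Eq.refl 19231)) (RangeOK.join (RangeOK.join (RangeOK.of_check ck1060) (RangeOK.of_check ck1061) (Eq.refl 19273)) (RangeOK.join (RangeOK.of_check ck1062) (RangeOK.of_check ck1063) (Eq.refl 19303)) (Eq.refl 19288)) (Eq.refl 19260)) (RangeOK.join (RangeOK.join (RangeOK.join (RangeOK.of_check ck1064) (RangeOK.of_check ck1065) (Eq.refl 19330)) (RangeOK.join (RangeOK.of_check ck1066) (RangeOK.of_check ck1067) (Eq.refl 19356)) (Eq.refl 19343)) (RangeOK.join (RangeOK.join (RangeOK.of_check ck1068) (RangeOK.of_check ck1069) (Eq.refl 19387)) (RangeOK.join (RangeOK.of_check ck1070) (RangeOK.of_check ck1071) (Eq.refl 19419)) (Eq.refl 19404))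 (Eq.refl 19371)) (Eq.refl 19315)) (RangeOK.join (RangeOK.join (RangeOK.join (RangeOK.join (RangeOK.of_check ck1072) (RangeOK.of_check ck1073) (Eq.refl 19453)) (RangeOK.join (RangeOK.of_check ck1074) (RangeOK.of_check ck1075) (Eq.refl 19485)) (Eq.refl 19470)) (RangeOK.join (RangeOK.join (RangeOK.of_check ck1076) (RangeOK.of_check ck1077) (Eq.refl 19516)) (RangeOK.join (RangeOK.of_check ck1078) (RangeOK.of_check ck1079) (Eq.refl 19546)) (Eq.refl 19532)) (Eq.refl 19501)) (RangeOK.join (RangeOK.join (RangeOK.join (RangeOK.of_check ck1080) (RangeOK.of_check ck1081) (Eq.refl 19576)) (RangeOK.join (RangeOK.of_check ck1082) (RangeOK.of_check ck1083) (Eq.refl 19605)) (Eq.refl 19591)) (RangeOK.join (RangeOK.join (RangeOK.of_check ck1084) (RangeOK.of_check ck1085) (Eq.refl 19637)) (RangeOK.join (RangeOK.of_check ck1086) (RangeOK.of_check ck1087) (Eq.refl 19663)) (Eq.refl 19650)) (Eq.refl 19621)) (Eq.refl 19562)) (Eq.refl 19437)) (Eq.refl 19205)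

end Vale.Agent.Snaky.P2
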