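import Vale.Agent.Snaky.P2.Tbl

namespace Vale.Agent.Snaky.P2

theorem ck1088 : checkRange tbl 19674 15 = 0 := by decide +kernel
theorem ck1089 : checkRange tbl 19689 17 = 0 := by decide +kernel
theorem ck1090 : checkRange tbl 19706 13 = 0 := by decide +kernel
theorem ck1091 : checkRange tbl 19719 14 = 0 := by decide +kernel
theorem ck1092 : checkRange tbl 19733 14 = 0 := by decide +kernel
theorem ck1093 : checkRange tbl 19747 16 = 0 := by decide +kernel
theorem ck1094 : checkRange tbl 19763 15 = 0 := by decide +kernel
theorem ck1095 : checkRange tbl 19778 15 = 0 := by decide +kernel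
theorem ck1096 : checkRange tbl 19793 14 = 0 := by decide +kernel
theorem ck1097 : checkRange tbl 19807 8 = 0 := by decide +kernel
theorem ck1098 : checkRange tbl 19815 10 = 0 := by decide +kernel
theorem ck1099 : checkRange tbl 19825 8 = 0 := by decide +kernel
theorem ck1100 : checkRange tbl 19833 8 = 0 := by decide +kernel
theorem ck1101 : checkRange tbl 19841 9 = 0 := by decide +kernel
theorem ck1102 : checkRange tbl 19850 8 = 0 := by decide +kernel
theorem ck1103 : checkRange tbl 19858 8 = 0 := by decide +kernel
theorem ck1104 : checkRange tbl 19866 8 = 0 := by decide +kernel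
theorem ck1105 : checkRange tbl 19874 6 = 0 := by decide +kernel
theorem ck1106 : checkRange tbl 19880 6 = 0 := by decide +kernel
theorem ck1107 : checkRange tbl 19886 10 = 0 := by decide +kernel
theorem ck1108 : checkRange tbl 19896 9 = 0 := by decide +kernel
theorem ck1109 : checkRange tbl 19905 10 = 0 := by decide +kernel
theorem ck1110 : checkRange tbl 19915 6 = 0 := by decide +kernel
theorem ck1111 : checkRange tbl 19921 9 = 0 := by decide +kernel
theorem ck1112 : checkRange tbl 19930 8 = 0 := by decide +kernel
theorem ck1113 : checkRange tbl 19938 10 = 0 := by decide +kernel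
theorem ck1114 : checkRange tbl 19948 9 = 0 := by decide +kernel
theorem ck1115 : checkRange tbl 19957 10 = 0 := by decide +kernel
theorem ck1116 : checkRange tbl 19967 8 = 0 := by decide +kernel
theorem ck1117 : checkRange tbl 19975 9 = 0 := by decide +kernel
theorem ck1118 : checkRange tbl 19984 5 = 0 := by decide +kernel
theorem ck1119 : checkRange tbl 19989 5 = 0 := by decide +kernel
theorem ck1120 : checkRange tbl 19994 6 = 0 := by decide +kernel
theorem ck1121 : checkRange tbl 20000 9 = 0 := by decide +kernel
theorem ck1122 : checkRange tbl 20009 8 = 0 := by decide +kernel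
theorem ck1123 : checkRange tbl 20017 5 = 0 := by decide +kernel
theorem ck1124 : checkRange tbl 20022 5 = 0 := by decide +kernel
theorem ck1125 : checkRange tbl 20027 7 = 0 := by decide +kernel
theorem ck1126 : checkRange tbl 20034 14 = 0 := by decide +kernel
theorem ck1127 : checkRange tbl 20048 10 = 0 := by decide +kernel
theorem ck1128 : checkRange tbl 20058 9 = 0 := by decide +kernel
theorem ck1129 : checkRange tbl 20067 8 = 0 := by decide +kernel
theorem ck1130 : checkRange tbl 20075 6 = 0 := by decide +kernel
theorem ck1131 : checkRange tbl 20081 4 = 0 := by decide +kernel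
theorem ck1132 : checkRange tbl 20085 12 = 0 := by decide +kernel
theorem ck1133 : checkRange tbl 20097 12 = 0 := by decide +kernel
theorem ck1134 : checkRange tbl 20109 11 = 0 := by decide +kernel
theorem ck1135 : checkRange tbl 20120 11 = 0 := by decide +kernel
theorem ck1136 : checkRange tbl 20131 9 = 0 := by decide +kernel
theorem ck1137 : checkRange tbl 20140 10 = 0 := by decide +kernel
theorem ck1138 : checkRange tbl 20150 13 = 0 := by decide +kernel
theorem ck1139 : checkRange tbl 20163 9 = 0 := by decide +kernel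
theorem ck1140 : checkRange tbl 20172 16 = 0 := by decide +kernel
theorem ck1141 : checkRange tbl 20188 8 = 0 := by decide +kernel
theorem ck1142 : checkRange tbl 20196 14 = 0 := by decide +kernel
theorem ck1143 : checkRange tbl 20210 12 = 0 := by decide +kernel
theorem ck1144 : checkRange tbl 20222 10 = 0 := by decide +kernel
theorem ck1145 : checkRange tbl 20232 14 = 0 := by decide +kernel
theorem ck1146 : checkRange tbl 20246 8 = 0 := by decide +kernel
theorem ck1147 : checkRange tbl 20254 11 = 0 := by decide +kernel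
theorem ck1148 : checkRange tbl 20265 8 = 0 := by decide +kernel
theorem ck1149 : checkRange tbl 20273 5 = 0 := by decide +kernel
theorem ck1150 : checkRange tbl 20278 4 = 0 := by decide +kernel
theorem ck1151 : checkRange tbl 20282 6 = 0 := by decide +kernel

theorem rng17 : RangeOK tbl 19674 614 := RangeOK.join (RangeOK.join (RangeOK.join (RangeOK.join (RangeOK.join (RangeOK.join (RangeOK.of_check ck1088) (RangeOK.of_check ck1089) (Eq.refl 19689)) (RangeOK.join (RangeOK.of_check ck1090) (RangeOK.of_check ck1091) (Eq.refl 19719)) (Eq.refl 19706)) (RangeOK.join (RangeOK.join (RangeOK.of_check ck1092) (RangeOK.of_check ck1093) (Eq.refl 19747)) (RangeOK.join (RangeOK.of_check ck1094) (RangeOK.of_check ck1095) (Eq.refl 19778)) (Eq.refl 19763)) (Eq.refl 19733)) (RangeOK.join (RangeOK.join (RangeOK.join (RangeOK.of_check ck1096) (RangeOK.of_check ck1097) (Eq.refl 19807)) (RangeOK.join (RangeOK.of_check ck1098) (RangeOK.of_check ck1099) (Eq.refl 19825)) (Eq.refl 19815)) (RangeOK.join (RangeOK.join (RangeOK.of_check ck1100) (RangeOK.of_check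 ck1101) (Eq.refl 19841)) (RangeOK.join (RangeOK.of_check ck1102) (RangeOK.of_check ck1103) (Eq.refl 19858)) (Eq.refl 19850)) (Eq.refl 19833)) (Eq.refl 19793)) (RangeOK.join (RangeOK.join (RangeOK.join (RangeOK.join (RangeOK.of_check ck1104) (RangeOK.of_check ck1105) (Eq.refl 19874)) (RangeOK.join (RangeOK.of_check ck1106) (RangeOK.of_check ck1107) (Eq.refl 19886)) (Eq.refl 19880)) (RangeOK.join (RangeOK.join (RangeOK.of_check ck1108) (RangeOK.of_check ck1109) (Eq.refl 19905)) (RangeOK.join (RangeOK.of_check ck1110) (RangeOK.of_check ck1111) (Eq.refl 19921)) (Eq.refl 19915)) (Eq.refl 19896)) (RangeOK.join (RangeOK.join (RangeOK.join (RangeOK.of_check ck1112) (RangeOK.of_check ck1113) (Eq.refl 19938)) (RangeOK.join (RangeOK.of_check ck1114) (RangeOK.of_check ck1115) (Eq.refl 19957)) (Eq.refl 19948)) (RangeOK.join (RangeOK.join (RangeOK.of_check ck1116) (RangeOK.of_check ck1117) (Eq.refl 19975)) (RangeOK.join (RangeOK.of_check ck1118) (RangeOK.of_check ck1119) (Eq.refl 19989)) (Eq.refl 19984)) (Eq.refl 19967)) (Eq.refl 19930)) (Eq.refl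 19866)) (RangeOK.join (RangeOK.join (RangeOK.join (RangeOK.join (RangeOK.join (RangeOK.of_check ck1120) (RangeOK.of_check ck1121) (Eq.refl 20000)) (RangeOK.join (RangeOK.of_check ck1122) (RangeOK.of_check ck1123) (Eq.refl 20017)) (Eq.refl 20009)) (RangeOK.join (RangeOK.join (RangeOK.of_check ck1124) (RangeOK.of_check ck1125) (Eq.refl 20027)) (RangeOK.join (RangeOK.of_check ck1126) (RangeOK.of_check ck1127) (Eq.refl 20048)) (Eq.refl 20034)) (Eq.refl 20022)) (RangeOK.join (RangeOK.join (RangeOK.join (RangeOK.of_check ck1128) (RangeOK.of_check ck1129) (Eq.refl 20067)) (RangeOK.join (RangeOK.of_check ck1130) (RangeOK.of_check ck1131) (Eq.refl 20081)) (Eq.refl 20075)) (RangeOK.join (RangeOK.join (RangeOK.of_check ck1132) (RangeOK.of_check ck1133) (Eq.refl 20097)) (RangeOK.join (RangeOK.of_check ck1134) (RangeOK.of_check ck1135) (Eq.refl 20120)) (Eq.refl 20109)) (Eq.refl 20085)) (Eq.refl 20058)) (RangeOK.join (RangeOK.join (RangeOK.join (RangeOK.join (RangeOK.of_check ck1136) (RangeOK.of_check ck1137) (Eq.refl 20140)) (RangeOK.join (RangeOK.of_check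 ck1138) (RangeOK.of_check ck1139) (Eq.refl 20163)) (Eq.refl 20150)) (RangeOK.join (RangeOK.join (RangeOK.of_check ck1140) (RangeOK.of_check ck1141) (Eq.refl 20188)) (RangeOK.join (RangeOK.of_check ck1142) (RangeOK.of_check ck1143) (Eq.refl 20210)) (Eq.refl 20196)) (Eq.refl 20172)) (RangeOK.join (RangeOK.join (RangeOK.join (RangeOK.of_check ck1144) (RangeOK.of_check ck1145) (Eq.refl 20232)) (RangeOK.join (RangeOK.of_check ck1146) (RangeOK.of_check ck1147) (Eq.refl 20254)) (Eq.refl 20246)) (RangeOK.join (RangeOK.join (RangeOK.of_check ck1148) (RangeOK.of_check ck1149) (Eq.refl 20273)) (RangeOK.join (RangeOK.of_check ck1150) (RangeOK.of_check ck1151) (Eq.refl 20282)) (Eq.refl 20278)) (Eq.refl 20265)) (Eq.refl 20222)) (Eq.refl 20131)) (Eq.refl 19994)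

end Vale.Agent.Snaky.P2
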