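import Vale.Agent.Snaky.P2.Tbl

namespace Vale.Agent.Snaky.P2

theorem ck1152 : checkRange tbl 20288 5 = 0 := by decide +kernel
theorem ck1153 : checkRange tbl 20293 12 = 0 := by decide +kernel
theorem ck1154 : checkRange tbl 20305 7 = 0 := by decide +kernel
theorem ck1155 : checkRange tbl 20312 9 = 0 := by decide +kernel
theorem ck1156 : checkRange tbl 20321 10 = 0 := by decide +kernel
theorem ck1157 : checkRange tbl 20331 19 = 0 := by decide +kernel
theorem ck1158 : checkRange tbl 20350 16 = 0 := by decide +kernel
theorem ck1159 : checkRange tbl 20366 23 = 0 := by decide +kernel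
theorem ck1160 : checkRange tbl 20389 10 = 0 := by decide +kernel
theorem ck1161 : checkRange tbl 20399 12 = 0 := by decide +kernel
theorem ck1162 : checkRange tbl 20411 16 = 0 := by decide +kernel
theorem ck1163 : checkRange tbl 20427 19 = 0 := by decide +kernel
theorem ck1164 : checkRange tbl 20446 18 = 0 := by decide +kernel
theorem ck1165 : checkRange tbl 20464 12 = 0 := by decide +kernel
theorem ck1166 : checkRange tbl 20476 21 = 0 := by decide +kernel
theorem ck1167 : checkRange tbl 20497 18 = 0 := by decide +kernel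
theorem ck1168 : checkRange tbl 20515 6 = 0 := by decide +kernel
theorem ck1169 : checkRange tbl 20521 8 = 0 := by decide +kernel
theorem ck1170 : checkRange tbl 20529 20 = 0 := by decide +kernel
theorem ck1171 : checkRange tbl 20549 15 = 0 := by decide +kernel
theorem ck1172 : checkRange tbl 20564 20 = 0 := by decide +kernel
theorem ck1173 : checkRange tbl 20584 23 = 0 := by decide +kernel
theorem ck1174 : checkRange tbl 20607 25 = 0 := by decide +kernel
theorem ck1175 : checkRange tbl 20632 25 = 0 := by decide +kernel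
theorem ck1176 : checkRange tbl 20657 30 = 0 := by decide +kernel
theorem ck1177 : checkRange tbl 20687 27 = 0 := by decide +kernel
theorem ck1178 : checkRange tbl 20714 17 = 0 := by decide +kernel
theorem ck1179 : checkRange tbl 20731 23 = 0 := by decide +kernel
theorem ck1180 : checkRange tbl 20754 26 = 0 := by decide +kernel
theorem ck1181 : checkRange tbl 20780 30 = 0 := by decide +kernel
theorem ck1182 : checkRange tbl 20810 25 = 0 := by decide +kernel
theorem ck1183 : checkRange tbl 20835 24 = 0 := by decide +kernel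
theorem ck1184 : checkRange tbl 20859 27 = 0 := by decide +kernel
theorem ck1185 : checkRange tbl 20886 23 = 0 := by decide +kernel
theorem ck1186 : checkRange tbl 20909 20 = 0 := by decide +kernel
theorem ck1187 : checkRange tbl 20929 28 = 0 := by decide +kernel
theorem ck1188 : checkRange tbl 20957 30 = 0 := by decide +kernel
theorem ck1189 : checkRange tbl 20987 30 = 0 := by decide +kernel
theorem ck1190 : checkRange tbl 21017 30 = 0 := by decide +kernel
theorem ck1191 : checkRange tbl 21047 30 = 0 := by decide +kernel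
theorem ck1192 : checkRange tbl 21077 27 = 0 := by decide +kernel
theorem ck1193 : checkRange tbl 21104 30 = 0 := by decide +kernel
theorem ck1194 : checkRange tbl 21134 30 = 0 := by decide +kernel
theorem ck1195 : checkRange tbl 21164 30 = 0 := by decide +kernel
theorem ck1196 : checkRange tbl 21194 28 = 0 := by decide +kernel
theorem ck1197 : checkRange tbl 21222 30 = 0 := by decide +kernel
theorem ck1198 : checkRange tbl 21252 28 = 0 := by decide +kernel
theorem ck1199 : checkRange tbl 21280 25 = 0 := by decide +kernel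
theorem ck1200 : checkRange tbl 21305 30 = 0 := by decide +kernel
theorem ck1201 : checkRange tbl 21335 16 = 0 := by decide +kernel
theorem ck1202 : checkRange tbl 21351 7 = 0 := by decide +kernel
theorem ck1203 : checkRange tbl 21358 6 = 0 := by decide +kernel
theorem ck1204 : checkRange tbl 21364 7 = 0 := by decide +kernel
theorem ck1205 : checkRange tbl 21371 6 = 0 := by decide +kernel
theorem ck1206 : checkRange tbl 21377 9 = 0 := by decide +kernel
theorem ck1207 : checkRange tbl 21386 10 = 0 := by decide +kernel
theorem ck1208 : checkRange tbl 21396 8 = 0 := by decide +kernel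
theorem ck1209 : checkRange tbl 21404 9 = 0 := by decide +kernel
theorem ck1210 : checkRange tbl 21413 6 = 0 := by decide +kernel
theorem ck1211 : checkRange tbl 21419 9 = 0 := by decide +kernel
theorem ck1212 : checkRange tbl 21428 8 = 0 := by decide +kernel
theorem ck1213 : checkRange tbl 21436 6 = 0 := by decide +kernel
theorem ck1214 : checkRange tbl 21442 8 = 0 := by decide +kernel
theorem ck1215 : checkRange tbl 21450 7 = 0 := by decide +kernel

theorem rng18 : RangeOK tbl 20288 1169 := RangeOK.join (RangeOK.join (RangeOK.join (RangeOK.join (RangeOK.join (RangeOK.join (RangeOK.of_check ck1152) (RangeOK.of_check ck1153) (Eq.refl 20293)) (RangeOK.join (RangeOK.of_check ck1154) (RangeOK.of_check ck1155) (Eq.refl 20312)) (Eq.refl 20305)) (RangeOK.join (RangeOK.join (RangeOK.of_check ck1156) (RangeOK.of_check ck1157) (Eq.refl 20331)) (RangeOK.join (RangeOK.of_check ck1158) (RangeOK.of_check ck1159) (Eq.refl 20366)) (Eq.refl 20350)) (Eq.refl 20321)) (RangeOK.join (RangeOK.join (RangeOK.join (RangeOK.of_check ck1160) (RangeOK.of_check ck1161)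 (Eq.refl 20399)) (RangeOK.join (RangeOK.of_check ck1162) (RangeOK.of_check ck1163) (Eq.refl 20427)) (Eq.refl 20411)) (RangeOK.join (RangeOK.join (RangeOK.of_check ck1164) (RangeOK.of_check ck1165) (Eq.refl 20464)) (RangeOK.join (RangeOK.of_check ck1166) (RangeOK.of_check ck1167) (Eq.refl 20497)) (Eq.refl 20476)) (Eq.refl 20446)) (Eq.refl 20389)) (RangeOK.join (RangeOK.join (RangeOK.join (RangeOK.join (RangeOK.of_check ck1168) (RangeOK.of_check ck1169) (Eq.refl 20521)) (RangeOK.join (RangeOK.of_check ck1170) (RangeOK.of_check ck1171) (Eq.refl 20549)) (Eq.refl 20529)) (RangeOK.join (RangeOK.join (RangeOK.of_check ck1172) (RangeOK.of_check ck1173) (Eq.refl 20584)) (RangeOK.join (RangeOK.of_check ck1174) (RangeOK.of_check ck1175) (Eq.refl 20632)) (Eq.refl 20607)) (Eq.refl 20564)) (RangeOK.join (RangeOK.join (RangeOK.join (RangeOK.of_check ck1176) (RangeOK.of_check ck1177) (Eq.refl 20687)) (RangeOK.join (RangeOK.of_check ck1178) (RangeOK.of_check ck1179) (Eq.refl 20731)) (Eq.refl 20714)) (RangeOK.join (RangeOK.join (RangeOK.of_check ck1180)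 (RangeOK.of_check ck1181) (Eq.refl 20780)) (RangeOK.join (RangeOK.of_check ck1182) (RangeOK.of_check ck1183) (Eq.refl 20835)) (Eq.refl 20810)) (Eq.refl 20754)) (Eq.refl 20657)) (Eq.refl 20515)) (RangeOK.join (RangeOK.join (RangeOK.join (RangeOK.join (RangeOK.join (RangeOK.of_check ck1184) (RangeOK.of_check ck1185) (Eq.refl 20886)) (RangeOK.join (RangeOK.of_check ck1186) (RangeOK.of_check ck1187) (Eq.refl 20929)) (Eq.refl 20909)) (RangeOK.join (RangeOK.join (RangeOK.of_check ck1188) (RangeOK.of_check ck1189) (Eq.refl 20987)) (RangeOK.join (RangeOK.of_check ck1190) (RangeOK.of_check ck1191) (Eq.refl 21047)) (Eq.refl 21017)) (Eq.refl 20957)) (RangeOK.join (RangeOK.join (RangeOK.join (RangeOK.of_check ck1192) (RangeOK.of_check ck1193) (Eq.refl 21104)) (RangeOK.join (RangeOK.of_check ck1194) (RangeOK.of_check ck1195) (Eq.refl 21164)) (Eq.refl 21134)) (RangeOK.join (RangeOK.join (RangeOK.of_check ck1196) (RangeOK.of_check ck1197) (Eq.refl 21222)) (RangeOK.join (RangeOK.of_check ck1198) (RangeOK.of_check ck1199) (Eq.refl 21280)) (Eq.refl 21252))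 (Eq.refl 21194)) (Eq.refl 21077)) (RangeOK.join (RangeOK.join (RangeOK.join (RangeOK.join (RangeOK.of_check ck1200) (RangeOK.of_check ck1201) (Eq.refl 21335)) (RangeOK.join (RangeOK.of_check ck1202) (RangeOK.of_check ck1203) (Eq.refl 21358)) (Eq.refl 21351)) (RangeOK.join (RangeOK.join (RangeOK.of_check ck1204) (RangeOK.of_check ck1205) (Eq.refl 21371)) (RangeOK.join (RangeOK.of_check ck1206) (RangeOK.of_check ck1207) (Eq.refl 21386)) (Eq.refl 21377)) (Eq.refl 21364)) (RangeOK.join (RangeOK.join (RangeOK.join (RangeOK.of_check ck1208) (RangeOK.of_check ck1209) (Eq.refl 21404)) (RangeOK.join (RangeOK.of_check ck1210) (RangeOK.of_check ck1211) (Eq.refl 21419)) (Eq.refl 21413)) (RangeOK.join (RangeOK.join (RangeOK.of_check ck1212) (RangeOK.of_check ck1213) (Eq.refl 21436)) (RangeOK.join (RangeOK.of_check ck1214) (RangeOK.of_check ck1215) (Eq.refl 21450)) (Eq.refl 21442)) (Eq.refl 21428)) (Eq.refl 21396)) (Eq.refl 21305)) (Eq.refl 20859)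

end Vale.Agent.Snaky.P2
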