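import Vale.Agent.Snaky.P2.Tbl

namespace Vale.Agent.Snaky.P2

theorem ck1216 : checkRange tbl 21457 8 = 0 := by decide +kernel
theorem ck1217 : checkRange tbl 21465 9 = 0 := by decide +kernel
theorem ck1218 : checkRange tbl 21474 8 = 0 := by decide +kernel
theorem ck1219 : checkRange tbl 21482 8 = 0 := by decide +kernel
theorem ck1220 : checkRange tbl 21490 9 = 0 := by decide +kernel
theorem ck1221 : checkRange tbl 21499 8 = 0 := by decide +kernel
theorem ck1222 : checkRange tbl 21507 8 = 0 := by decide +kernel
theorem ck1223 : checkRange tbl 21515 7 = 0 := by decide +kernel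
theorem ck1224 : checkRange tbl 21522 8 = 0 := by decide +kernel
theorem ck1225 : checkRange tbl 21530 7 = 0 := by decide +kernel
theorem ck1226 : checkRange tbl 21537 9 = 0 := by decide +kernel
theorem ck1227 : checkRange tbl 21546 10 = 0 := by decide +kernel
theorem ck1228 : checkRange tbl 21556 10 = 0 := by decide +kernel
theorem ck1229 : checkRange tbl 21566 9 = 0 := by decide +kernel
theorem ck1230 : checkRange tbl 21575 9 = 0 := by decide +kernel
theorem ck1231 : checkRange tbl 21584 11 = 0 := by decide +kernel
theorem ck1232 : checkRange tbl 21595 11 = 0 := by decide +kernel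
theorem ck1233 : checkRange tbl 21606 11 = 0 := by decide +kernel
theorem ck1234 : checkRange tbl 21617 12 = 0 := by decide +kernel
theorem ck1235 : checkRange tbl 21629 11 = 0 := by decide +kernel
theorem ck1236 : checkRange tbl 21640 11 = 0 := by decide +kernel
theorem ck1237 : checkRange tbl 21651 11 = 0 := by decide +kernel
theorem ck1238 : checkRange tbl 21662 10 = 0 := by decide +kernel
theorem ck1239 : checkRange tbl 21672 13 = 0 := by decide +kernel
theorem ck1240 : checkRange tbl 21685 12 = 0 := by decide +kernel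
theorem ck1241 : checkRange tbl 21697 12 = 0 := by decide +kernel
theorem ck1242 : checkRange tbl 21709 14 = 0 := by decide +kernel
theorem ck1243 : checkRange tbl 21723 14 = 0 := by decide +kernel
theorem ck1244 : checkRange tbl 21737 14 = 0 := by decide +kernel
theorem ck1245 : checkRange tbl 21751 14 = 0 := by decide +kernel
theorem ck1246 : checkRange tbl 21765 11 = 0 := by decide +kernel
theorem ck1247 : checkRange tbl 21776 14 = 0 := by decide +kernel
theorem ck1248 : checkRange tbl 21790 17 = 0 := by decide +kernel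
theorem ck1249 : checkRange tbl 21807 17 = 0 := by decide +kernel
theorem ck1250 : checkRange tbl 21824 14 = 0 := by decide +kernel
theorem ck1251 : checkRange tbl 21838 13 = 0 := by decide +kernel
theorem ck1252 : checkRange tbl 21851 14 = 0 := by decide +kernel
theorem ck1253 : checkRange tbl 21865 14 = 0 := by decide +kernel
theorem ck1254 : checkRange tbl 21879 13 = 0 := by decide +kernel
theorem ck1255 : checkRange tbl 21892 12 = 0 := by decide +kernel
theorem ck1256 : checkRange tbl 21904 13 = 0 := by decide +kernel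
theorem ck1257 : checkRange tbl 21917 12 = 0 := by decide +kernel
theorem ck1258 : checkRange tbl 21929 14 = 0 := by decide +kernel
theorem ck1259 : checkRange tbl 21943 12 = 0 := by decide +kernel
theorem ck1260 : checkRange tbl 21955 10 = 0 := by decide +kernel
theorem ck1261 : checkRange tbl 21965 15 = 0 := by decide +kernel
theorem ck1262 : checkRange tbl 21980 14 = 0 := by decide +kernel
theorem ck1263 : checkRange tbl 21994 14 = 0 := by decide +kernel
theorem ck1264 : checkRange tbl 22008 14 = 0 := by decide +kernel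
theorem ck1265 : checkRange tbl 22022 4 = 0 := by decide +kernel
theorem ck1266 : checkRange tbl 22026 8 = 0 := by decide +kernel
theorem ck1267 : checkRange tbl 22034 5 = 0 := by decide +kernel
theorem ck1268 : checkRange tbl 22039 6 = 0 := by decide +kernel
theorem ck1269 : checkRange tbl 22045 8 = 0 := by decide +kernel
theorem ck1270 : checkRange tbl 22053 4 = 0 := by decide +kernel
theorem ck1271 : checkRange tbl 22057 6 = 0 := by decide +kernel
theorem ck1272 : checkRange tbl 22063 5 = 0 := by decide +kernel
theorem ck1273 : checkRange tbl 22068 4 = 0 := by decide +kernel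
theorem ck1274 : checkRange tbl 22072 4 = 0 := by decide +kernel
theorem ck1275 : checkRange tbl 22076 6 = 0 := by decide +kernel
theorem ck1276 : checkRange tbl 22082 7 = 0 := by decide +kernel
theorem ck1277 : checkRange tbl 22089 5 = 0 := by decide +kernel
theorem ck1278 : checkRange tbl 22094 5 = 0 := by decide +kernel
theorem ck1279 : checkRange tbl 22099 4 = 0 := by decide +kernel

theorem rng19 : RangeOK tbl 21457 646 := RangeOK.join (RangeOK.join (RangeOK.join (RangeOK.join (RangeOK.join (RangeOK.join (RangeOK.of_check ck1216) (RangeOK.of_check ck1217) (Eq.refl 21465)) (RangeOK.join (RangeOK.of_check ck1218) (RangeOK.of_check ck1219) (Eq.refl 21482)) (Eq.refl 21474)) (RangeOK.join (RangeOK.join (RangeOK.of_check ck1220) (RangeOK.of_check ck1221) (Eq.refl 21499)) (RangeOK.join (RangeOK.of_check ck1222) (RangeOK.of_check ck1223) (Eq.refl 21515)) (Eq.refl 21507)) (Eq.refl 21490)) (RangeOK.join (RangeOK.join (RangeOK.join (RangeOK.of_check ck1224) (RangeOK.of_check ck1225) (Eq.refl 21530)) (RangeOK.join (RangeOK.of_check ck1226) (RangeOK.of_check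 ck1227) (Eq.refl 21546)) (Eq.refl 21537)) (RangeOK.join (RangeOK.join (RangeOK.of_check ck1228) (RangeOK.of_check ck1229) (Eq.refl 21566)) (RangeOK.join (RangeOK.of_check ck1230) (RangeOK.of_check ck1231) (Eq.refl 21584)) (Eq.refl 21575)) (Eq.refl 21556)) (Eq.refl 21522)) (RangeOK.join (RangeOK.join (RangeOK.join (RangeOK.join (RangeOK.of_check ck1232) (RangeOK.of_check ck1233) (Eq.refl 21606)) (RangeOK.join (RangeOK.of_check ck1234) (RangeOK.of_check ck1235) (Eq.refl 21629)) (Eq.refl 21617)) (RangeOK.join (RangeOK.join (RangeOK.of_check ck1236) (RangeOK.of_check ck1237) (Eq.refl 21651)) (RangeOK.join (RangeOK.of_check ck1238) (RangeOK.of_check ck1239) (Eq.refl 21672)) (Eq.refl 21662)) (Eq.refl 21640)) (RangeOK.join (RangeOK.join (RangeOK.join (RangeOK.of_check ck1240) (RangeOK.of_check ck1241) (Eq.refl 21697)) (RangeOK.join (RangeOK.of_check ck1242) (RangeOK.of_check ck1243) (Eq.refl 21723)) (Eq.refl 21709)) (RangeOK.join (RangeOK.join (RangeOK.of_check ck1244) (RangeOK.of_check ck1245) (Eq.refl 21751)) (RangeOK.join (RangeOK.of_check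 ck1246) (RangeOK.of_check ck1247) (Eq.refl 21776)) (Eq.refl 21765)) (Eq.refl 21737)) (Eq.refl 21685)) (Eq.refl 21595)) (RangeOK.join (RangeOK.join (RangeOK.join (RangeOK.join (RangeOK.join (RangeOK.of_check ck1248) (RangeOK.of_check ck1249) (Eq.refl 21807)) (RangeOK.join (RangeOK.of_check ck1250) (RangeOK.of_check ck1251) (Eq.refl 21838)) (Eq.refl 21824)) (RangeOK.join (RangeOK.join (RangeOK.of_check ck1252) (RangeOK.of_check ck1253) (Eq.refl 21865)) (RangeOK.join (RangeOK.of_check ck1254) (RangeOK.of_check ck1255) (Eq.refl 21892)) (Eq.refl 21879)) (Eq.refl 21851)) (RangeOK.join (RangeOK.join (RangeOK.join (RangeOK.of_check ck1256) (RangeOK.of_check ck1257) (Eq.refl 21917)) (RangeOK.join (RangeOK.of_check ck1258) (RangeOK.of_check ck1259) (Eq.refl 21943)) (Eq.refl 21929)) (RangeOK.join (RangeOK.join (RangeOK.of_check ck1260) (RangeOK.of_check ck1261) (Eq.refl 21965)) (RangeOK.join (RangeOK.of_check ck1262) (RangeOK.of_check ck1263) (Eq.refl 21994)) (Eq.refl 21980)) (Eq.refl 21955)) (Eq.refl 21904)) (RangeOK.join (RangeOK.join (RangeOK.join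 (RangeOK.join (RangeOK.of_check ck1264) (RangeOK.of_check ck1265) (Eq.refl 22022)) (RangeOK.join (RangeOK.of_check ck1266) (RangeOK.of_check ck1267) (Eq.refl 22034)) (Eq.refl 22026)) (RangeOK.join (RangeOK.join (RangeOK.of_check ck1268) (RangeOK.of_check ck1269) (Eq.refl 22045)) (RangeOK.join (RangeOK.of_check ck1270) (RangeOK.of_check ck1271) (Eq.refl 22057)) (Eq.refl 22053)) (Eq.refl 22039)) (RangeOK.join (RangeOK.join (RangeOK.join (RangeOK.of_check ck1272) (RangeOK.of_check ck1273) (Eq.refl 22068)) (RangeOK.join (RangeOK.of_check ck1274) (RangeOK.of_check ck1275) (Eq.refl 22076)) (Eq.refl 22072)) (RangeOK.join (RangeOK.join (RangeOK.of_check ck1276) (RangeOK.of_check ck1277) (Eq.refl 22089)) (RangeOK.join (RangeOK.of_check ck1278) (RangeOK.of_check ck1279) (Eq.refl 22099)) (Eq.refl 22094)) (Eq.refl 22082)) (Eq.refl 22063)) (Eq.refl 22008)) (Eq.refl 21790)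

end Vale.Agent.Snaky.P2
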