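import Vale.Agent.Snaky.P2.Tbl

namespace Vale.Agent.Snaky.P2

theorem ck128 : checkRange tbl 2376 19 = 0 := by decide +kernel
theorem ck129 : checkRange tbl 2395 16 = 0 := by decide +kernel
theorem ck130 : checkRange tbl 2411 18 = 0 := by decide +kernel
theorem ck131 : checkRange tbl 2429 18 = 0 := by decide +kernel
theorem ck132 : checkRange tbl 2447 18 = 0 := by decide +kernel
theorem ck133 : checkRange tbl 2465 20 = 0 := by decide +kernel
theorem ck134 : checkRange tbl 2485 17 = 0 := by decide +kernel
theorem ck135 : checkRange tbl 2502 18 = 0 := by decide +kernel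
theorem ck136 : checkRange tbl 2520 20 = 0 := by decide +kernel
theorem ck137 : checkRange tbl 2540 18 = 0 := by decide +kernel
theorem ck138 : checkRange tbl 2558 18 = 0 := by decide +kernel
theorem ck139 : checkRange tbl 2576 20 = 0 := by decide +kernel
theorem ck140 : checkRange tbl 2596 17 = 0 := by decide +kernel
theorem ck141 : checkRange tbl 2613 20 = 0 := by decide +kernel
theorem ck142 : checkRange tbl 2633 19 = 0 := by decide +kernel
theorem ck143 : checkRange tbl 2652 22 = 0 := by decide +kernel
theorem ck144 : checkRange tbl 2674 18 = 0 := by decide +kernel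
theorem ck145 : checkRange tbl 2692 21 = 0 := by decide +kernel
theorem ck146 : checkRange tbl 2713 20 = 0 := by decide +kernel
theorem ck147 : checkRange tbl 2733 20 = 0 := by decide +kernel
theorem ck148 : checkRange tbl 2753 19 = 0 := by decide +kernel
theorem ck149 : checkRange tbl 2772 21 = 0 := by decide +kernel
theorem ck150 : checkRange tbl 2793 19 = 0 := by decide +kernel
theorem ck151 : checkRange tbl 2812 21 = 0 := by decide +kernel
theorem ck152 : checkRange tbl 2833 23 = 0 := by decide +kernel
theorem ck153 : checkRange tbl 2856 22 = 0 := by decide +kernel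
theorem ck154 : checkRange tbl 2878 24 = 0 := by decide +kernel
theorem ck155 : checkRange tbl 2902 20 = 0 := by decide +kernel
theorem ck156 : checkRange tbl 2922 23 = 0 := by decide +kernel
theorem ck157 : checkRange tbl 2945 21 = 0 := by decide +kernel
theorem ck158 : checkRange tbl 2966 20 = 0 := by decide +kernel
theorem ck159 : checkRange tbl 2986 20 = 0 := by decide +kernel
theorem ck160 : checkRange tbl 3006 21 = 0 := by decide +kernel
theorem ck161 : checkRange tbl 3027 20 = 0 := by decide +kernel
theorem ck162 : checkRange tbl 3047 22 = 0 := by decide +kernel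
theorem ck163 : checkRange tbl 3069 25 = 0 := by decide +kernel
theorem ck164 : checkRange tbl 3094 19 = 0 := by decide +kernel
theorem ck165 : checkRange tbl 3113 25 = 0 := by decide +kernel
theorem ck166 : checkRange tbl 3138 24 = 0 := by decide +kernel
theorem ck167 : checkRange tbl 3162 22 = 0 := by decide +kernel
theorem ck168 : checkRange tbl 3184 22 = 0 := by decide +kernel
theorem ck169 : checkRange tbl 3206 20 = 0 := by decide +kernel
theorem ck170 : checkRange tbl 3226 24 = 0 := by decide +kernel
theorem ck171 : checkRange tbl 3250 20 = 0 := by decide +kernel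
theorem ck172 : checkRange tbl 3270 24 = 0 := by decide +kernel
theorem ck173 : checkRange tbl 3294 23 = 0 := by decide +kernel
theorem ck174 : checkRange tbl 3317 21 = 0 := by decide +kernel
theorem ck175 : checkRange tbl 3338 23 = 0 := by decide +kernel
theorem ck176 : checkRange tbl 3361 27 = 0 := by decide +kernel
theorem ck177 : checkRange tbl 3388 25 = 0 := by decide +kernel
theorem ck178 : checkRange tbl 3413 18 = 0 := by decide +kernel
theorem ck179 : checkRange tbl 3431 24 = 0 := by decide +kernel
theorem ck180 : checkRange tbl 3455 27 = 0 := by decide +kernel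
theorem ck181 : checkRange tbl 3482 24 = 0 := by decide +kernel
theorem ck182 : checkRange tbl 3506 25 = 0 := by decide +kernel
theorem ck183 : checkRange tbl 3531 28 = 0 := by decide +kernel
theorem ck184 : checkRange tbl 3559 27 = 0 := by decide +kernel
theorem ck185 : checkRange tbl 3586 26 = 0 := by decide +kernel
theorem ck186 : checkRange tbl 3612 29 = 0 := by decide +kernel
theorem ck187 : checkRange tbl 3641 27 = 0 := by decide +kernel
theorem ck188 : checkRange tbl 3668 17 = 0 := by decide +kernel
theorem ck189 : checkRange tbl 3685 17 = 0 := by decide +kernel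
theorem ck190 : checkRange tbl 3702 15 = 0 := by decide +kernel
theorem ck191 : checkRange tbl 3717 15 = 0 := by decide +kernel

theorem rng2 : RangeOK tbl 2376 1356 := RangeOK.join (RangeOK.join (RangeOK.join (RangeOK.join (RangeOK.join (RangeOK.join (RangeOK.of_check ck128) (RangeOK.of_check ck129) (Eq.refl 2395)) (RangeOK.join (RangeOK.of_check ck130) (RangeOK.of_check ck131) (Eq.refl 2429)) (Eq.refl 2411)) (RangeOK.join (RangeOK.join (RangeOK.of_check ck132) (RangeOK.of_check ck133) (Eq.refl 2465)) (RangeOK.join (RangeOK.of_check ck134) (RangeOK.of_check ck135) (Eq.refl 2502)) (Eq.refl 2485)) (Eq.refl 2447)) (RangeOK.join (RangeOK.join (RangeOK.join (RangeOK.of_check ck136) (RangeOK.of_check ck137) (Eq.refl 2540)) (RangeOK.join (RangeOK.of_check ck138) (RangeOK.of_check ck139) (Eq.refl 2576)) (Eq.refl 2558)) (RangeOK.join (RangeOK.join (RangeOK.of_check ck140) (RangeOK.of_check ck141) (Eq.refl 2613)) (RangeOK.join (RangeOK.of_check ck142) (RangeOK.of_check ck143) (Eq.refl 2652)) (Eq.refl 2633)) (Eq.refl 2596)) (Eq.refl 2520)) (RangeOK.join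 (RangeOK.join (RangeOK.join (RangeOK.join (RangeOK.of_check ck144) (RangeOK.of_check ck145) (Eq.refl 2692)) (RangeOK.join (RangeOK.of_check ck146) (RangeOK.of_check ck147) (Eq.refl 2733)) (Eq.refl 2713)) (RangeOK.join (RangeOK.join (RangeOK.of_check ck148) (RangeOK.of_check ck149) (Eq.refl 2772)) (RangeOK.join (RangeOK.of_check ck150) (RangeOK.of_check ck151) (Eq.refl 2812)) (Eq.refl 2793)) (Eq.refl 2753)) (RangeOK.join (RangeOK.join (RangeOK.join (RangeOK.of_check ck152) (RangeOK.of_check ck153) (Eq.refl 2856)) (RangeOK.join (RangeOK.of_check ck154) (RangeOK.of_check ck155) (Eq.refl 2902)) (Eq.refl 2878)) (RangeOK.join (RangeOK.join (RangeOK.of_check ck156) (RangeOK.of_check ck157) (Eq.refl 2945)) (RangeOK.join (RangeOK.of_check ck158) (RangeOK.of_check ck159) (Eq.refl 2986)) (Eq.refl 2966)) (Eq.refl 2922)) (Eq.refl 2833)) (Eq.refl 2674)) (RangeOK.join (RangeOK.join (RangeOK.join (RangeOK.join (RangeOK.join (RangeOK.of_check ck160) (RangeOK.of_check ck161) (Eq.refl 3027)) (RangeOK.join (RangeOK.of_check ck162) (RangeOK.of_check ck163)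 (Eq.refl 3069)) (Eq.refl 3047)) (RangeOK.join (RangeOK.join (RangeOK.of_check ck164) (RangeOK.of_check ck165) (Eq.refl 3113)) (RangeOK.join (RangeOK.of_check ck166) (RangeOK.of_check ck167) (Eq.refl 3162)) (Eq.refl 3138)) (Eq.refl 3094)) (RangeOK.join (RangeOK.join (RangeOK.join (RangeOK.of_check ck168) (RangeOK.of_check ck169) (Eq.refl 3206)) (RangeOK.join (RangeOK.of_check ck170) (RangeOK.of_check ck171) (Eq.refl 3250)) (Eq.refl 3226)) (RangeOK.join (RangeOK.join (RangeOK.of_check ck172) (RangeOK.of_check ck173) (Eq.refl 3294)) (RangeOK.join (RangeOK.of_check ck174) (RangeOK.of_check ck175) (Eq.refl 3338)) (Eq.refl 3317)) (Eq.refl 3270)) (Eq.refl 3184)) (RangeOK.join (RangeOK.join (RangeOK.join (RangeOK.join (RangeOK.of_check ck176) (RangeOK.of_check ck177) (Eq.refl 3388)) (RangeOK.join (RangeOK.of_check ck178) (RangeOK.of_check ck179) (Eq.refl 3431)) (Eq.refl 3413)) (RangeOK.join (RangeOK.join (RangeOK.of_check ck180) (RangeOK.of_check ck181) (Eq.refl 3482)) (RangeOK.join (RangeOK.of_check ck182) (RangeOK.of_check ck183) (Eq.refl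 3531)) (Eq.refl 3506)) (Eq.refl 3455)) (RangeOK.join (RangeOK.join (RangeOK.join (RangeOK.of_check ck184) (RangeOK.of_check ck185) (Eq.refl 3586)) (RangeOK.join (RangeOK.of_check ck186) (RangeOK.of_check ck187) (Eq.refl 3641)) (Eq.refl 3612)) (RangeOK.join (RangeOK.join (RangeOK.of_check ck188) (RangeOK.of_check ck189) (Eq.refl 3685)) (RangeOK.join (RangeOK.of_check ck190) (RangeOK.of_check ck191) (Eq.refl 3717)) (Eq.refl 3702)) (Eq.refl 3668)) (Eq.refl 3559)) (Eq.refl 3361)) (Eq.refl 3006)

end Vale.Agent.Snaky.P2
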