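import Vale.Agent.Snaky.P2.Tbl

namespace Vale.Agent.Snaky.P2

theorem ck1280 : checkRange tbl 22103 6 = 0 := by decide +kernel
theorem ck1281 : checkRange tbl 22109 10 = 0 := by decide +kernel
theorem ck1282 : checkRange tbl 22119 10 = 0 := by decide +kernel
theorem ck1283 : checkRange tbl 22129 10 = 0 := by decide +kernel
theorem ck1284 : checkRange tbl 22139 12 = 0 := by decide +kernel
theorem ck1285 : checkRange tbl 22151 10 = 0 := by decide +kernel
theorem ck1286 : checkRange tbl 22161 10 = 0 := by decide +kernel
theorem ck1287 : checkRange tbl 22171 17 = 0 := by decide +kernel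
theorem ck1288 : checkRange tbl 22188 9 = 0 := by decide +kernel
theorem ck1289 : checkRange tbl 22197 7 = 0 := by decide +kernel
theorem ck1290 : checkRange tbl 22204 9 = 0 := by decide +kernel
theorem ck1291 : checkRange tbl 22213 16 = 0 := by decide +kernel
theorem ck1292 : checkRange tbl 22229 11 = 0 := by decide +kernel
theorem ck1293 : checkRange tbl 22240 6 = 0 := by decide +kernel
theorem ck1294 : checkRange tbl 22246 6 = 0 := by decide +kernel
theorem ck1295 : checkRange tbl 22252 11 = 0 := by decide +kernel
theorem ck1296 : checkRange tbl 22263 5 = 0 := by decide +kernel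
theorem ck1297 : checkRange tbl 22268 7 = 0 := by decide +kernel
theorem ck1298 : checkRange tbl 22275 5 = 0 := by decide +kernel
theorem ck1299 : checkRange tbl 22280 5 = 0 := by decide +kernel
theorem ck1300 : checkRange tbl 22285 12 = 0 := by decide +kernel
theorem ck1301 : checkRange tbl 22297 7 = 0 := by decide +kernel
theorem ck1302 : checkRange tbl 22304 10 = 0 := by decide +kernel
theorem ck1303 : checkRange tbl 22314 5 = 0 := by decide +kernel
theorem ck1304 : checkRange tbl 22319 19 = 0 := by decide +kernel
theorem ck1305 : checkRange tbl 22338 10 = 0 := by decide +kernel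
theorem ck1306 : checkRange tbl 22348 20 = 0 := by decide +kernel
theorem ck1307 : checkRange tbl 22368 11 = 0 := by decide +kernel
theorem ck1308 : checkRange tbl 22379 26 = 0 := by decide +kernel
theorem ck1309 : checkRange tbl 22405 27 = 0 := by decide +kernel
theorem ck1310 : checkRange tbl 22432 22 = 0 := by decide +kernel
theorem ck1311 : checkRange tbl 22454 26 = 0 := by decide +kernel
theorem ck1312 : checkRange tbl 22480 30 = 0 := by decide +kernel
theorem ck1313 : checkRange tbl 22510 17 = 0 := by decide +kernel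
theorem ck1314 : checkRange tbl 22527 25 = 0 := by decide +kernel
theorem ck1315 : checkRange tbl 22552 26 = 0 := by decide +kernel
theorem ck1316 : checkRange tbl 22578 22 = 0 := by decide +kernel
theorem ck1317 : checkRange tbl 22600 24 = 0 := by decide +kernel
theorem ck1318 : checkRange tbl 22624 27 = 0 := by decide +kernel
theorem ck1319 : checkRange tbl 22651 27 = 0 := by decide +kernel
theorem ck1320 : checkRange tbl 22678 26 = 0 := by decide +kernel
theorem ck1321 : checkRange tbl 22704 30 = 0 := by decide +kernel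
theorem ck1322 : checkRange tbl 22734 30 = 0 := by decide +kernel
theorem ck1323 : checkRange tbl 22764 30 = 0 := by decide +kernel
theorem ck1324 : checkRange tbl 22794 26 = 0 := by decide +kernel
theorem ck1325 : checkRange tbl 22820 27 = 0 := by decide +kernel
theorem ck1326 : checkRange tbl 22847 30 = 0 := by decide +kernel
theorem ck1327 : checkRange tbl 22877 23 = 0 := by decide +kernel
theorem ck1328 : checkRange tbl 22900 4 = 0 := by decide +kernel
theorem ck1329 : checkRange tbl 22904 5 = 0 := by decide +kernel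
theorem ck1330 : checkRange tbl 22909 4 = 0 := by decide +kernel
theorem ck1331 : checkRange tbl 22913 5 = 0 := by decide +kernel
theorem ck1332 : checkRange tbl 22918 4 = 0 := by decide +kernel
theorem ck1333 : checkRange tbl 22922 6 = 0 := by decide +kernel
theorem ck1334 : checkRange tbl 22928 5 = 0 := by decide +kernel
theorem ck1335 : checkRange tbl 22933 4 = 0 := by decide +kernel
theorem ck1336 : checkRange tbl 22937 5 = 0 := by decide +kernel
theorem ck1337 : checkRange tbl 22942 4 = 0 := by decide +kernel
theorem ck1338 : checkRange tbl 22946 5 = 0 := by decide +kernel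
theorem ck1339 : checkRange tbl 22951 5 = 0 := by decide +kernel
theorem ck1340 : checkRange tbl 22956 5 = 0 := by decide +kernel
theorem ck1341 : checkRange tbl 22961 4 = 0 := by decide +kernel
theorem ck1342 : checkRange tbl 22965 5 = 0 := by decide +kernel
theorem ck1343 : checkRange tbl 22970 6 = 0 := by decide +kernel

theorem rng20 : RangeOK tbl 22103 873 := RangeOK.join (RangeOK.join (RangeOK.join (RangeOK.join (RangeOK.join (RangeOK.join (RangeOK.of_check ck1280) (RangeOK.of_check ck1281) (Eq.refl 22109)) (RangeOK.join (RangeOK.of_check ck1282) (RangeOK.of_check ck1283) (Eq.refl 22129)) (Eq.refl 22119)) (RangeOK.join (RangeOK.join (RangeOK.of_check ck1284) (RangeOK.of_check ck1285) (Eq.refl 22151)) (RangeOK.join (RangeOK.of_check ck1286) (RangeOK.of_check ck1287) (Eq.refl 22171)) (Eq.refl 22161)) (Eq.refl 22139)) (RangeOK.join (RangeOK.join (RangeOK.join (RangeOK.of_check ck1288) (RangeOK.of_check ck1289) (Eq.refl 22197)) (RangeOK.join (RangeOK.of_check ck1290) (RangeOK.of_check ck1291) (Eq.refl 22213)) (Eq.refl 22204)) (RangeOK.join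 (RangeOK.join (RangeOK.of_check ck1292) (RangeOK.of_check ck1293) (Eq.refl 22240)) (RangeOK.join (RangeOK.of_check ck1294) (RangeOK.of_check ck1295) (Eq.refl 22252)) (Eq.refl 22246)) (Eq.refl 22229)) (Eq.refl 22188)) (RangeOK.join (RangeOK.join (RangeOK.join (RangeOK.join (RangeOK.of_check ck1296) (RangeOK.of_check ck1297) (Eq.refl 22268)) (RangeOK.join (RangeOK.of_check ck1298) (RangeOK.of_check ck1299) (Eq.refl 22280)) (Eq.refl 22275)) (RangeOK.join (RangeOK.join (RangeOK.of_check ck1300) (RangeOK.of_check ck1301) (Eq.refl 22297)) (RangeOK.join (RangeOK.of_check ck1302) (RangeOK.of_check ck1303) (Eq.refl 22314)) (Eq.refl 22304)) (Eq.refl 22285)) (RangeOK.join (RangeOK.join (RangeOK.join (RangeOK.of_check ck1304) (RangeOK.of_check ck1305) (Eq.refl 22338)) (RangeOK.join (RangeOK.of_check ck1306) (RangeOK.of_check ck1307) (Eq.refl 22368)) (Eq.refl 22348)) (RangeOK.join (RangeOK.join (RangeOK.of_check ck1308) (RangeOK.of_check ck1309) (Eq.refl 22405)) (RangeOK.join (RangeOK.of_check ck1310) (RangeOK.of_check ck1311) (Eq.refl 22454)) (Eq.refl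 22432)) (Eq.refl 22379)) (Eq.refl 22319)) (Eq.refl 22263)) (RangeOK.join (RangeOK.join (RangeOK.join (RangeOK.join (RangeOK.join (RangeOK.of_check ck1312) (RangeOK.of_check ck1313) (Eq.refl 22510)) (RangeOK.join (RangeOK.of_check ck1314) (RangeOK.of_check ck1315) (Eq.refl 22552)) (Eq.refl 22527)) (RangeOK.join (RangeOK.join (RangeOK.of_check ck1316) (RangeOK.of_check ck1317) (Eq.refl 22600)) (RangeOK.join (RangeOK.of_check ck1318) (RangeOK.of_check ck1319) (Eq.refl 22651)) (Eq.refl 22624)) (Eq.refl 22578)) (RangeOK.join (RangeOK.join (RangeOK.join (RangeOK.of_check ck1320) (RangeOK.of_check ck1321) (Eq.refl 22704)) (RangeOK.join (RangeOK.of_check ck1322) (RangeOK.of_check ck1323) (Eq.refl 22764)) (Eq.refl 22734)) (RangeOK.join (RangeOK.join (RangeOK.of_check ck1324) (RangeOK.of_check ck1325) (Eq.refl 22820)) (RangeOK.join (RangeOK.of_check ck1326) (RangeOK.of_check ck1327) (Eq.refl 22877)) (Eq.refl 22847)) (Eq.refl 22794)) (Eq.refl 22678)) (RangeOK.join (RangeOK.join (RangeOK.join (RangeOK.join (RangeOK.of_check ck1328) (RangeOK.of_check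 ck1329) (Eq.refl 22904)) (RangeOK.join (RangeOK.of_check ck1330) (RangeOK.of_check ck1331) (Eq.refl 22913)) (Eq.refl 22909)) (RangeOK.join (RangeOK.join (RangeOK.of_check ck1332) (RangeOK.of_check ck1333) (Eq.refl 22922)) (RangeOK.join (RangeOK.of_check ck1334) (RangeOK.of_check ck1335) (Eq.refl 22933)) (Eq.refl 22928)) (Eq.refl 22918)) (RangeOK.join (RangeOK.join (RangeOK.join (RangeOK.of_check ck1336) (RangeOK.of_check ck1337) (Eq.refl 22942)) (RangeOK.join (RangeOK.of_check ck1338) (RangeOK.of_check ck1339) (Eq.refl 22951)) (Eq.refl 22946)) (RangeOK.join (RangeOK.join (RangeOK.of_check ck1340) (RangeOK.of_check ck1341) (Eq.refl 22961)) (RangeOK.join (RangeOK.of_check ck1342) (RangeOK.of_check ck1343) (Eq.refl 22970)) (Eq.refl 22965)) (Eq.refl 22956)) (Eq.refl 22937)) (Eq.refl 22900)) (Eq.refl 22480)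

end Vale.Agent.Snaky.P2
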