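import Vale.Agent.Snaky.P2.Tbl

namespace Vale.Agent.Snaky.P2

theorem ck1344 : checkRange tbl 22976 6 = 0 := by decide +kernel
theorem ck1345 : checkRange tbl 22982 5 = 0 := by decide +kernel
theorem ck1346 : checkRange tbl 22987 5 = 0 := by decide +kernel
theorem ck1347 : checkRange tbl 22992 5 = 0 := by decide +kernel
theorem ck1348 : checkRange tbl 22997 4 = 0 := by decide +kernel
theorem ck1349 : checkRange tbl 23001 5 = 0 := by decide +kernel
theorem ck1350 : checkRange tbl 23006 5 = 0 := by decide +kernel
theorem ck1351 : checkRange tbl 23011 5 = 0 := by decide +kernel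
theorem ck1352 : checkRange tbl 23016 6 = 0 := by decide +kernel
theorem ck1353 : checkRange tbl 23022 4 = 0 := by decide +kernel
theorem ck1354 : checkRange tbl 23026 4 = 0 := by decide +kernel
theorem ck1355 : checkRange tbl 23030 5 = 0 := by decide +kernel
theorem ck1356 : checkRange tbl 23035 6 = 0 := by decide +kernel
theorem ck1357 : checkRange tbl 23041 4 = 0 := by decide +kernel
theorem ck1358 : checkRange tbl 23045 5 = 0 := by decide +kernel
theorem ck1359 : checkRange tbl 23050 6 = 0 := by decide +kernel
theorem ck1360 : checkRange tbl 23056 5 = 0 := by decide +kernel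
theorem ck1361 : checkRange tbl 23061 6 = 0 := by decide +kernel
theorem ck1362 : checkRange tbl 23067 6 = 0 := by decide +kernel
theorem ck1363 : checkRange tbl 23073 7 = 0 := by decide +kernel
theorem ck1364 : checkRange tbl 23080 9 = 0 := by decide +kernel
theorem ck1365 : checkRange tbl 23089 8 = 0 := by decide +kernel
theorem ck1366 : checkRange tbl 23097 8 = 0 := by decide +kernel
theorem ck1367 : checkRange tbl 23105 9 = 0 := by decide +kernel
theorem ck1368 : checkRange tbl 23114 9 = 0 := by decide +kernel
theorem ck1369 : checkRange tbl 23123 10 = 0 := by decide +kernel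
theorem ck1370 : checkRange tbl 23133 12 = 0 := by decide +kernel
theorem ck1371 : checkRange tbl 23145 12 = 0 := by decide +kernel
theorem ck1372 : checkRange tbl 23157 11 = 0 := by decide +kernel
theorem ck1373 : checkRange tbl 23168 10 = 0 := by decide +kernel
theorem ck1374 : checkRange tbl 23178 12 = 0 := by decide +kernel
theorem ck1375 : checkRange tbl 23190 13 = 0 := by decide +kernel
theorem ck1376 : checkRange tbl 23203 14 = 0 := by decide +kernel
theorem ck1377 : checkRange tbl 23217 12 = 0 := by decide +kernel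
theorem ck1378 : checkRange tbl 23229 15 = 0 := by decide +kernel
theorem ck1379 : checkRange tbl 23244 12 = 0 := by decide +kernel
theorem ck1380 : checkRange tbl 23256 11 = 0 := by decide +kernel
theorem ck1381 : checkRange tbl 23267 11 = 0 := by decide +kernel
theorem ck1382 : checkRange tbl 23278 11 = 0 := by decide +kernel
theorem ck1383 : checkRange tbl 23289 11 = 0 := by decide +kernel
theorem ck1384 : checkRange tbl 23300 12 = 0 := by decide +kernel
theorem ck1385 : checkRange tbl 23312 13 = 0 := by decide +kernel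
theorem ck1386 : checkRange tbl 23325 15 = 0 := by decide +kernel
theorem ck1387 : checkRange tbl 23340 13 = 0 := by decide +kernel
theorem ck1388 : checkRange tbl 23353 6 = 0 := by decide +kernel
theorem ck1389 : checkRange tbl 23359 4 = 0 := by decide +kernel
theorem ck1390 : checkRange tbl 23363 4 = 0 := by decide +kernel
theorem ck1391 : checkRange tbl 23367 3 = 0 := by decide +kernel
theorem ck1392 : checkRange tbl 23370 4 = 0 := by decide +kernel
theorem ck1393 : checkRange tbl 23374 4 = 0 := by decide +kernel
theorem ck1394 : checkRange tbl 23378 3 = 0 := by decide +kernel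
theorem ck1395 : checkRange tbl 23381 5 = 0 := by decide +kernel
theorem ck1396 : checkRange tbl 23386 5 = 0 := by decide +kernel
theorem ck1397 : checkRange tbl 23391 6 = 0 := by decide +kernel
theorem ck1398 : checkRange tbl 23397 4 = 0 := by decide +kernel
theorem ck1399 : checkRange tbl 23401 5 = 0 := by decide +kernel
theorem ck1400 : checkRange tbl 23406 4 = 0 := by decide +kernel
theorem ck1401 : checkRange tbl 23410 5 = 0 := by decide +kernel
theorem ck1402 : checkRange tbl 23415 5 = 0 := by decide +kernel
theorem ck1403 : checkRange tbl 23420 18 = 0 := by decide +kernel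
theorem ck1404 : checkRange tbl 23438 5 = 0 := by decide +kernel
theorem ck1405 : checkRange tbl 23443 4 = 0 := by decide +kernel
theorem ck1406 : checkRange tbl 23447 3 = 0 := by decide +kernel
theorem ck1407 : checkRange tbl 23450 6 = 0 := by decide +kernel

theorem rng21 : RangeOK tbl 22976 480 := RangeOK.join (RangeOK.join (RangeOK.join (RangeOK.join (RangeOK.join (RangeOK.join (RangeOK.of_check ck1344) (RangeOK.of_check ck1345) (Eq.refl 22982)) (RangeOK.join (RangeOK.of_check ck1346) (RangeOK.of_check ck1347) (Eq.refl 22992)) (Eq.refl 22987)) (RangeOK.join (RangeOK.join (RangeOK.of_check ck1348) (RangeOK.of_check ck1349) (Eq.refl 23001)) (RangeOK.join (RangeOK.of_check ck1350) (RangeOK.of_check ck1351) (Eq.refl 23011)) (Eq.refl 23006)) (Eq.refl 22997)) (RangeOK.join (RangeOK.join (RangeOK.join (RangeOK.of_check ck1352) (RangeOK.of_check ck1353) (Eq.refl 23022)) (RangeOK.join (RangeOK.of_check ck1354) (RangeOK.of_check ck1355) (Eq.refl 23030)) (Eq.refl 23026)) (RangeOK.join (RangeOK.join (RangeOK.of_check ck1356) (RangeOK.of_check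 ck1357) (Eq.refl 23041)) (RangeOK.join (RangeOK.of_check ck1358) (RangeOK.of_check ck1359) (Eq.refl 23050)) (Eq.refl 23045)) (Eq.refl 23035)) (Eq.refl 23016)) (RangeOK.join (RangeOK.join (RangeOK.join (RangeOK.join (RangeOK.of_check ck1360) (RangeOK.of_check ck1361) (Eq.refl 23061)) (RangeOK.join (RangeOK.of_check ck1362) (RangeOK.of_check ck1363) (Eq.refl 23073)) (Eq.refl 23067)) (RangeOK.join (RangeOK.join (RangeOK.of_check ck1364) (RangeOK.of_check ck1365) (Eq.refl 23089)) (RangeOK.join (RangeOK.of_check ck1366) (RangeOK.of_check ck1367) (Eq.refl 23105)) (Eq.refl 23097)) (Eq.refl 23080)) (RangeOK.join (RangeOK.join (RangeOK.join (RangeOK.of_check ck1368) (RangeOK.of_check ck1369) (Eq.refl 23123)) (RangeOK.join (RangeOK.of_check ck1370) (RangeOK.of_check ck1371) (Eq.refl 23145)) (Eq.refl 23133)) (RangeOK.join (RangeOK.join (RangeOK.of_check ck1372) (RangeOK.of_check ck1373) (Eq.refl 23168)) (RangeOK.join (RangeOK.of_check ck1374) (RangeOK.of_check ck1375) (Eq.refl 23190)) (Eq.refl 23178)) (Eq.refl 23157)) (Eq.refl 23114)) (Eq.refl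 23056)) (RangeOK.join (RangeOK.join (RangeOK.join (RangeOK.join (RangeOK.join (RangeOK.of_check ck1376) (RangeOK.of_check ck1377) (Eq.refl 23217)) (RangeOK.join (RangeOK.of_check ck1378) (RangeOK.of_check ck1379) (Eq.refl 23244)) (Eq.refl 23229)) (RangeOK.join (RangeOK.join (RangeOK.of_check ck1380) (RangeOK.of_check ck1381) (Eq.refl 23267)) (RangeOK.join (RangeOK.of_check ck1382) (RangeOK.of_check ck1383) (Eq.refl 23289)) (Eq.refl 23278)) (Eq.refl 23256)) (RangeOK.join (RangeOK.join (RangeOK.join (RangeOK.of_check ck1384) (RangeOK.of_check ck1385) (Eq.refl 23312)) (RangeOK.join (RangeOK.of_check ck1386) (RangeOK.of_check ck1387) (Eq.refl 23340)) (Eq.refl 23325)) (RangeOK.join (RangeOK.join (RangeOK.of_check ck1388) (RangeOK.of_check ck1389) (Eq.refl 23359)) (RangeOK.join (RangeOK.of_check ck1390) (RangeOK.of_check ck1391) (Eq.refl 23367)) (Eq.refl 23363)) (Eq.refl 23353)) (Eq.refl 23300)) (RangeOK.join (RangeOK.join (RangeOK.join (RangeOK.join (RangeOK.of_check ck1392) (RangeOK.of_check ck1393) (Eq.refl 23374)) (RangeOK.join (RangeOK.of_check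 ck1394) (RangeOK.of_check ck1395) (Eq.refl 23381)) (Eq.refl 23378)) (RangeOK.join (RangeOK.join (RangeOK.of_check ck1396) (RangeOK.of_check ck1397) (Eq.refl 23391)) (RangeOK.join (RangeOK.of_check ck1398) (RangeOK.of_check ck1399) (Eq.refl 23401)) (Eq.refl 23397)) (Eq.refl 23386)) (RangeOK.join (RangeOK.join (RangeOK.join (RangeOK.of_check ck1400) (RangeOK.of_check ck1401) (Eq.refl 23410)) (RangeOK.join (RangeOK.of_check ck1402) (RangeOK.of_check ck1403) (Eq.refl 23420)) (Eq.refl 23415)) (RangeOK.join (RangeOK.join (RangeOK.of_check ck1404) (RangeOK.of_check ck1405) (Eq.refl 23443)) (RangeOK.join (RangeOK.of_check ck1406) (RangeOK.of_check ck1407) (Eq.refl 23450)) (Eq.refl 23447)) (Eq.refl 23438)) (Eq.refl 23406)) (Eq.refl 23370)) (Eq.refl 23203)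

end Vale.Agent.Snaky.P2
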