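import Vale.Agent.Snaky.P2.Tbl

namespace Vale.Agent.Snaky.P2

theorem ck1408 : checkRange tbl 23456 6 = 0 := by decide +kernel
theorem ck1409 : checkRange tbl 23462 6 = 0 := by decide +kernel
theorem ck1410 : checkRange tbl 23468 5 = 0 := by decide +kernel
theorem ck1411 : checkRange tbl 23473 4 = 0 := by decide +kernel
theorem ck1412 : checkRange tbl 23477 5 = 0 := by decide +kernel
theorem ck1413 : checkRange tbl 23482 6 = 0 := by decide +kernel
theorem ck1414 : checkRange tbl 23488 5 = 0 := by decide +kernel
theorem ck1415 : checkRange tbl 23493 4 = 0 := by decide +kernel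
theorem ck1416 : checkRange tbl 23497 15 = 0 := by decide +kernel
theorem ck1417 : checkRange tbl 23512 4 = 0 := by decide +kernel
theorem ck1418 : checkRange tbl 23516 5 = 0 := by decide +kernel
theorem ck1419 : checkRange tbl 23521 7 = 0 := by decide +kernel
theorem ck1420 : checkRange tbl 23528 4 = 0 := by decide +kernel
theorem ck1421 : checkRange tbl 23532 6 = 0 := by decide +kernel
theorem ck1422 : checkRange tbl 23538 4 = 0 := by decide +kernel
theorem ck1423 : checkRange tbl 23542 6 = 0 := by decide +kernel
theorem ck1424 : checkRange tbl 23548 4 = 0 := by decide +kernel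
theorem ck1425 : checkRange tbl 23552 4 = 0 := by decide +kernel
theorem ck1426 : checkRange tbl 23556 4 = 0 := by decide +kernel
theorem ck1427 : checkRange tbl 23560 4 = 0 := by decide +kernel
theorem ck1428 : checkRange tbl 23564 5 = 0 := by decide +kernel
theorem ck1429 : checkRange tbl 23569 4 = 0 := by decide +kernel
theorem ck1430 : checkRange tbl 23573 6 = 0 := by decide +kernel
theorem ck1431 : checkRange tbl 23579 3 = 0 := by decide +kernel
theorem ck1432 : checkRange tbl 23582 5 = 0 := by decide +kernel
theorem ck1433 : checkRange tbl 23587 21 = 0 := by decide +kernel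
theorem ck1434 : checkRange tbl 23608 11 = 0 := by decide +kernel
theorem ck1435 : checkRange tbl 23619 7 = 0 := by decide +kernel
theorem ck1436 : checkRange tbl 23626 5 = 0 := by decide +kernel
theorem ck1437 : checkRange tbl 23631 4 = 0 := by decide +kernel
theorem ck1438 : checkRange tbl 23635 7 = 0 := by decide +kernel
theorem ck1439 : checkRange tbl 23642 13 = 0 := by decide +kernel
theorem ck1440 : checkRange tbl 23655 7 = 0 := by decide +kernel
theorem ck1441 : checkRange tbl 23662 16 = 0 := by decide +kernel
theorem ck1442 : checkRange tbl 23678 30 = 0 := by decide +kernel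
theorem ck1443 : checkRange tbl 23708 30 = 0 := by decide +kernel
theorem ck1444 : checkRange tbl 23738 20 = 0 := by decide +kernel
theorem ck1445 : checkRange tbl 23758 25 = 0 := by decide +kernel
theorem ck1446 : checkRange tbl 23783 30 = 0 := by decide +kernel
theorem ck1447 : checkRange tbl 23813 26 = 0 := by decide +kernel
theorem ck1448 : checkRange tbl 23839 26 = 0 := by decide +kernel
theorem ck1449 : checkRange tbl 23865 26 = 0 := by decide +kernel
theorem ck1450 : checkRange tbl 23891 30 = 0 := by decide +kernel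
theorem ck1451 : checkRange tbl 23921 20 = 0 := by decide +kernel
theorem ck1452 : checkRange tbl 23941 30 = 0 := by decide +kernel
theorem ck1453 : checkRange tbl 23971 18 = 0 := by decide +kernel
theorem ck1454 : checkRange tbl 23989 2 = 0 := by decide +kernel
theorem ck1455 : checkRange tbl 23991 2 = 0 := by decide +kernel
theorem ck1456 : checkRange tbl 23993 2 = 0 := by decide +kernel
theorem ck1457 : checkRange tbl 23995 3 = 0 := by decide +kernel
theorem ck1458 : checkRange tbl 23998 3 = 0 := by decide +kernel
theorem ck1459 : checkRange tbl 24001 2 = 0 := by decide +kernel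
theorem ck1460 : checkRange tbl 24003 2 = 0 := by decide +kernel
theorem ck1461 : checkRange tbl 24005 2 = 0 := by decide +kernel
theorem ck1462 : checkRange tbl 24007 2 = 0 := by decide +kernel
theorem ck1463 : checkRange tbl 24009 2 = 0 := by decide +kernel
theorem ck1464 : checkRange tbl 24011 2 = 0 := by decide +kernel
theorem ck1465 : checkRange tbl 24013 2 = 0 := by decide +kernel
theorem ck1466 : checkRange tbl 24015 2 = 0 := by decide +kernel
theorem ck1467 : checkRange tbl 24017 4 = 0 := by decide +kernel
theorem ck1468 : checkRange tbl 24021 4 = 0 := by decide +kernel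
theorem ck1469 : checkRange tbl 24025 5 = 0 := by decide +kernel
theorem ck1470 : checkRange tbl 24030 6 = 0 := by decide +kernel
theorem ck1471 : checkRange tbl 24036 8 = 0 := by decide +kernel

theorem rng22 : RangeOK tbl 23456 588 := RangeOK.join (RangeOK.join (RangeOK.join (RangeOK.join (RangeOK.join (RangeOK.join (RangeOK.of_check ck1408) (RangeOK.of_check ck1409) (Eq.refl 23462)) (RangeOK.join (RangeOK.of_check ck1410) (RangeOK.of_check ck1411) (Eq.refl 23473)) (Eq.refl 23468)) (RangeOK.join (RangeOK.join (RangeOK.of_check ck1412) (RangeOK.of_check ck1413) (Eq.refl 23482)) (RangeOK.join (RangeOK.of_check ck1414) (RangeOK.of_check ck1415) (Eq.refl 23493)) (Eq.refl 23488)) (Eq.refl 23477)) (RangeOK.join (RangeOK.join (RangeOK.join (RangeOK.of_check ck1416) (RangeOK.of_check ck1417) (Eq.refl 23512)) (RangeOK.join (RangeOK.of_check ck1418) (RangeOK.of_check ck1419) (Eq.refl 23521)) (Eq.refl 23516)) (RangeOK.join (RangeOK.join (RangeOK.of_check ck1420) (RangeOK.of_check ck1421) (Eq.refl 23532)) (RangeOK.join (RangeOK.of_check ck1422)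 (RangeOK.of_check ck1423) (Eq.refl 23542)) (Eq.refl 23538)) (Eq.refl 23528)) (Eq.refl 23497)) (RangeOK.join (RangeOK.join (RangeOK.join (RangeOK.join (RangeOK.of_check ck1424) (RangeOK.of_check ck1425) (Eq.refl 23552)) (RangeOK.join (RangeOK.of_check ck1426) (RangeOK.of_check ck1427) (Eq.refl 23560)) (Eq.refl 23556)) (RangeOK.join (RangeOK.join (RangeOK.of_check ck1428) (RangeOK.of_check ck1429) (Eq.refl 23569)) (RangeOK.join (RangeOK.of_check ck1430) (RangeOK.of_check ck1431) (Eq.refl 23579)) (Eq.refl 23573)) (Eq.refl 23564)) (RangeOK.join (RangeOK.join (RangeOK.join (RangeOK.of_check ck1432) (RangeOK.of_check ck1433) (Eq.refl 23587)) (RangeOK.join (RangeOK.of_check ck1434) (RangeOK.of_check ck1435) (Eq.refl 23619)) (Eq.refl 23608)) (RangeOK.join (RangeOK.join (RangeOK.of_check ck1436) (RangeOK.of_check ck1437) (Eq.refl 23631)) (RangeOK.join (RangeOK.of_check ck1438) (RangeOK.of_check ck1439) (Eq.refl 23642)) (Eq.refl 23635)) (Eq.refl 23626)) (Eq.refl 23582)) (Eq.refl 23548)) (RangeOK.join (RangeOK.join (RangeOK.join (RangeOK.join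 (RangeOK.join (RangeOK.of_check ck1440) (RangeOK.of_check ck1441) (Eq.refl 23662)) (RangeOK.join (RangeOK.of_check ck1442) (RangeOK.of_check ck1443) (Eq.refl 23708)) (Eq.refl 23678)) (RangeOK.join (RangeOK.join (RangeOK.of_check ck1444) (RangeOK.of_check ck1445) (Eq.refl 23758)) (RangeOK.join (RangeOK.of_check ck1446) (RangeOK.of_check ck1447) (Eq.refl 23813)) (Eq.refl 23783)) (Eq.refl 23738)) (RangeOK.join (RangeOK.join (RangeOK.join (RangeOK.of_check ck1448) (RangeOK.of_check ck1449) (Eq.refl 23865)) (RangeOK.join (RangeOK.of_check ck1450) (RangeOK.of_check ck1451) (Eq.refl 23921)) (Eq.refl 23891)) (RangeOK.join (RangeOK.join (RangeOK.of_check ck1452) (RangeOK.of_check ck1453) (Eq.refl 23971)) (RangeOK.join (RangeOK.of_check ck1454) (RangeOK.of_check ck1455) (Eq.refl 23991)) (Eq.refl 23989)) (Eq.refl 23941)) (Eq.refl 23839)) (RangeOK.join (RangeOK.join (RangeOK.join (RangeOK.join (RangeOK.of_check ck1456) (RangeOK.of_check ck1457) (Eq.refl 23995)) (RangeOK.join (RangeOK.of_check ck1458) (RangeOK.of_check ck1459) (Eq.refl 24001))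 (Eq.refl 23998)) (RangeOK.join (RangeOK.join (RangeOK.of_check ck1460) (RangeOK.of_check ck1461) (Eq.refl 24005)) (RangeOK.join (RangeOK.of_check ck1462) (RangeOK.of_check ck1463) (Eq.refl 24009)) (Eq.refl 24007)) (Eq.refl 24003)) (RangeOK.join (RangeOK.join (RangeOK.join (RangeOK.of_check ck1464) (RangeOK.of_check ck1465) (Eq.refl 24013)) (RangeOK.join (RangeOK.of_check ck1466) (RangeOK.of_check ck1467) (Eq.refl 24017)) (Eq.refl 24015)) (RangeOK.join (RangeOK.join (RangeOK.of_check ck1468) (RangeOK.of_check ck1469) (Eq.refl 24025)) (RangeOK.join (RangeOK.of_check ck1470) (RangeOK.of_check ck1471) (Eq.refl 24036)) (Eq.refl 24030)) (Eq.refl 24021)) (Eq.refl 24011)) (Eq.refl 23993)) (Eq.refl 23655)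

end Vale.Agent.Snaky.P2
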