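import Vale.Agent.Snaky.P2.Tbl

namespace Vale.Agent.Snaky.P2

theorem ck1472 : checkRange tbl 24044 6 = 0 := by decide +kernel
theorem ck1473 : checkRange tbl 24050 8 = 0 := by decide +kernel
theorem ck1474 : checkRange tbl 24058 8 = 0 := by decide +kernel
theorem ck1475 : checkRange tbl 24066 12 = 0 := by decide +kernel
theorem ck1476 : checkRange tbl 24078 11 = 0 := by decide +kernel
theorem ck1477 : checkRange tbl 24089 10 = 0 := by decide +kernel
theorem ck1478 : checkRange tbl 24099 10 = 0 := by decide +kernel
theorem ck1479 : checkRange tbl 24109 9 = 0 := by decide +kernel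
theorem ck1480 : checkRange tbl 24118 11 = 0 := by decide +kernel
theorem ck1481 : checkRange tbl 24129 10 = 0 := by decide +kernel
theorem ck1482 : checkRange tbl 24139 13 = 0 := by decide +kernel
theorem ck1483 : checkRange tbl 24152 12 = 0 := by decide +kernel
theorem ck1484 : checkRange tbl 24164 4 = 0 := by decide +kernel
theorem ck1485 : checkRange tbl 24168 2 = 0 := by decide +kernel
theorem ck1486 : checkRange tbl 24170 19 = 0 := by decide +kernel
theorem ck1487 : checkRange tbl 24189 6 = 0 := by decide +kernel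
theorem ck1488 : checkRange tbl 24195 3 = 0 := by decide +kernel
theorem ck1489 : checkRange tbl 24198 2 = 0 := by decide +kernel
theorem ck1490 : checkRange tbl 24200 2 = 0 := by decide +kernel
theorem ck1491 : checkRange tbl 24202 2 = 0 := by decide +kernel
theorem ck1492 : checkRange tbl 24204 5 = 0 := by decide +kernel
theorem ck1493 : checkRange tbl 24209 23 = 0 := by decide +kernel
theorem ck1494 : checkRange tbl 24232 21 = 0 := by decide +kernel
theorem ck1495 : checkRange tbl 24253 11 = 0 := by decide +kernel
theorem ck1496 : checkRange tbl 24264 30 = 0 := by decide +kernel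
theorem ck1497 : checkRange tbl 24294 24 = 0 := by decide +kernel
theorem ck1498 : checkRange tbl 24318 18 = 0 := by decide +kernel
theorem ck1499 : checkRange tbl 24336 20 = 0 := by decide +kernel
theorem ck1500 : checkRange tbl 24356 15 = 0 := by decide +kernel
theorem ck1501 : checkRange tbl 24371 2 = 0 := by decide +kernel
theorem ck1502 : checkRange tbl 24373 2 = 0 := by decide +kernel
theorem ck1503 : checkRange tbl 24375 4 = 0 := by decide +kernel
theorem ck1504 : checkRange tbl 24379 5 = 0 := by decide +kernel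
theorem ck1505 : checkRange tbl 24384 5 = 0 := by decide +kernel
theorem ck1506 : checkRange tbl 24389 10 = 0 := by decide +kernel
theorem ck1507 : checkRange tbl 24399 8 = 0 := by decide +kernel
theorem ck1508 : checkRange tbl 24407 8 = 0 := by decide +kernel
theorem ck1509 : checkRange tbl 24415 9 = 0 := by decide +kernel
theorem ck1510 : checkRange tbl 24424 8 = 0 := by decide +kernel
theorem ck1511 : checkRange tbl 24432 8 = 0 := by decide +kernel
theorem ck1512 : checkRange tbl 24440 7 = 0 := by decide +kernel
theorem ck1513 : checkRange tbl 24447 2 = 0 := by decide +kernel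
theorem ck1514 : checkRange tbl 24449 2 = 0 := by decide +kernel
theorem ck1515 : checkRange tbl 24451 5 = 0 := by decide +kernel
theorem ck1516 : checkRange tbl 24456 1 = 0 := by decide +kernel
theorem ck1517 : checkRange tbl 24457 1 = 0 := by decide +kernel
theorem ck1518 : checkRange tbl 24458 1 = 0 := by decide +kernel
theorem ck1519 : checkRange tbl 24459 1 = 0 := by decide +kernel
theorem ck1520 : checkRange tbl 24460 1 = 0 := by decide +kernel
theorem ck1521 : checkRange tbl 24461 1 = 0 := by decide +kernel
theorem ck1522 : checkRange tbl 24462 5 = 0 := by decide +kernel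
theorem ck1523 : checkRange tbl 24467 7 = 0 := by decide +kernel
theorem ck1524 : checkRange tbl 24474 7 = 0 := by decide +kernel
theorem ck1525 : checkRange tbl 24481 16 = 0 := by decide +kernel
theorem ck1526 : checkRange tbl 24497 18 = 0 := by decide +kernel
theorem ck1527 : checkRange tbl 24515 14 = 0 := by decide +kernel
theorem ck1528 : checkRange tbl 24529 15 = 0 := by decide +kernel
theorem ck1529 : checkRange tbl 24544 8 = 0 := by decide +kernel
theorem ck1530 : checkRange tbl 24552 7 = 0 := by decide +kernel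
theorem ck1531 : checkRange tbl 24559 5 = 0 := by decide +kernel
theorem ck1532 : checkRange tbl 24564 2 = 0 := by decide +kernel
theorem ck1533 : checkRange tbl 24566 17 = 0 := by decide +kernel
theorem ck1534 : checkRange tbl 24583 5 = 0 := by decide +kernel
theorem ck1535 : checkRange tbl 24588 2 = 0 := by decide +kernel

theorem rng23 : RangeOK tbl 24044 546 := RangeOK.join (RangeOK.join (RangeOK.join (RangeOK.join (RangeOK.join (RangeOK.join (RangeOK.of_check ck1472) (RangeOK.of_check ck1473) (Eq.refl 24050)) (RangeOK.join (RangeOK.of_check ck1474) (RangeOK.of_check ck1475) (Eq.refl 24066)) (Eq.refl 24058)) (RangeOK.join (RangeOK.join (RangeOK.of_check ck1476) (RangeOK.of_check ck1477) (Eq.refl 24089)) (RangeOK.join (RangeOK.of_check ck1478) (RangeOK.of_check ck1479) (Eq.refl 24109)) (Eq.refl 24099)) (Eq.refl 24078)) (RangeOK.join (RangeOK.join (RangeOK.join (RangeOK.of_check ck1480) (RangeOK.of_check ck1481) (Eq.refl 24129)) (RangeOK.join (RangeOK.of_check ck1482) (RangeOK.of_check ck1483) (Eq.refl 24152)) (Eq.refl 24139)) (RangeOK.join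 (RangeOK.join (RangeOK.of_check ck1484) (RangeOK.of_check ck1485) (Eq.refl 24168)) (RangeOK.join (RangeOK.of_check ck1486) (RangeOK.of_check ck1487) (Eq.refl 24189)) (Eq.refl 24170)) (Eq.refl 24164)) (Eq.refl 24118)) (RangeOK.join (RangeOK.join (RangeOK.join (RangeOK.join (RangeOK.of_check ck1488) (RangeOK.of_check ck1489) (Eq.refl 24198)) (RangeOK.join (RangeOK.of_check ck1490) (RangeOK.of_check ck1491) (Eq.refl 24202)) (Eq.refl 24200)) (RangeOK.join (RangeOK.join (RangeOK.of_check ck1492) (RangeOK.of_check ck1493) (Eq.refl 24209)) (RangeOK.join (RangeOK.of_check ck1494) (RangeOK.of_check ck1495) (Eq.refl 24253)) (Eq.refl 24232)) (Eq.refl 24204)) (RangeOK.join (RangeOK.join (RangeOK.join (RangeOK.of_check ck1496) (RangeOK.of_check ck1497) (Eq.refl 24294)) (RangeOK.join (RangeOK.of_check ck1498) (RangeOK.of_check ck1499) (Eq.refl 24336)) (Eq.refl 24318)) (RangeOK.join (RangeOK.join (RangeOK.of_check ck1500) (RangeOK.of_check ck1501) (Eq.refl 24371)) (RangeOK.join (RangeOK.of_check ck1502) (RangeOK.of_check ck1503) (Eq.refl 24375)) (Eq.refl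 24373)) (Eq.refl 24356)) (Eq.refl 24264)) (Eq.refl 24195)) (RangeOK.join (RangeOK.join (RangeOK.join (RangeOK.join (RangeOK.join (RangeOK.of_check ck1504) (RangeOK.of_check ck1505) (Eq.refl 24384)) (RangeOK.join (RangeOK.of_check ck1506) (RangeOK.of_check ck1507) (Eq.refl 24399)) (Eq.refl 24389)) (RangeOK.join (RangeOK.join (RangeOK.of_check ck1508) (RangeOK.of_check ck1509) (Eq.refl 24415)) (RangeOK.join (RangeOK.of_check ck1510) (RangeOK.of_check ck1511) (Eq.refl 24432)) (Eq.refl 24424)) (Eq.refl 24407)) (RangeOK.join (RangeOK.join (RangeOK.join (RangeOK.of_check ck1512) (RangeOK.of_check ck1513) (Eq.refl 24447)) (RangeOK.join (RangeOK.of_check ck1514) (RangeOK.of_check ck1515) (Eq.refl 24451)) (Eq.refl 24449)) (RangeOK.join (RangeOK.join (RangeOK.of_check ck1516) (RangeOK.of_check ck1517) (Eq.refl 24457)) (RangeOK.join (RangeOK.of_check ck1518) (RangeOK.of_check ck1519) (Eq.refl 24459)) (Eq.refl 24458)) (Eq.refl 24456)) (Eq.refl 24440)) (RangeOK.join (RangeOK.join (RangeOK.join (RangeOK.join (RangeOK.of_check ck1520) (RangeOK.of_check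 ck1521) (Eq.refl 24461)) (RangeOK.join (RangeOK.of_check ck1522) (RangeOK.of_check ck1523) (Eq.refl 24467)) (Eq.refl 24462)) (RangeOK.join (RangeOK.join (RangeOK.of_check ck1524) (RangeOK.of_check ck1525) (Eq.refl 24481)) (RangeOK.join (RangeOK.of_check ck1526) (RangeOK.of_check ck1527) (Eq.refl 24515)) (Eq.refl 24497)) (Eq.refl 24474)) (RangeOK.join (RangeOK.join (RangeOK.join (RangeOK.of_check ck1528) (RangeOK.of_check ck1529) (Eq.refl 24544)) (RangeOK.join (RangeOK.of_check ck1530) (RangeOK.of_check ck1531) (Eq.refl 24559)) (Eq.refl 24552)) (RangeOK.join (RangeOK.join (RangeOK.of_check ck1532) (RangeOK.of_check ck1533) (Eq.refl 24566)) (RangeOK.join (RangeOK.of_check ck1534) (RangeOK.of_check ck1535) (Eq.refl 24588)) (Eq.refl 24583)) (Eq.refl 24564)) (Eq.refl 24529)) (Eq.refl 24460)) (Eq.refl 24379)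

end Vale.Agent.Snaky.P2
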