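import Vale.Agent.Snaky.P2.Tbl

namespace Vale.Agent.Snaky.P2

theorem ck192 : checkRange tbl 3732 18 = 0 := by decide +kernel
theorem ck193 : checkRange tbl 3750 16 = 0 := by decide +kernel
theorem ck194 : checkRange tbl 3766 18 = 0 := by decide +kernel
theorem ck195 : checkRange tbl 3784 16 = 0 := by decide +kernel
theorem ck196 : checkRange tbl 3800 17 = 0 := by decide +kernel
theorem ck197 : checkRange tbl 3817 16 = 0 := by decide +kernel
theorem ck198 : checkRange tbl 3833 17 = 0 := by decide +kernel
theorem ck199 : checkRange tbl 3850 17 = 0 := by decide +kernel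
theorem ck200 : checkRange tbl 3867 18 = 0 := by decide +kernel
theorem ck201 : checkRange tbl 3885 18 = 0 := by decide +kernel
theorem ck202 : checkRange tbl 3903 17 = 0 := by decide +kernel
theorem ck203 : checkRange tbl 3920 17 = 0 := by decide +kernel
theorem ck204 : checkRange tbl 3937 17 = 0 := by decide +kernel
theorem ck205 : checkRange tbl 3954 17 = 0 := by decide +kernel
theorem ck206 : checkRange tbl 3971 17 = 0 := by decide +kernel
theorem ck207 : checkRange tbl 3988 17 = 0 := by decide +kernel
theorem ck208 : checkRange tbl 4005 17 = 0 := by decide +kernel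
theorem ck209 : checkRange tbl 4022 16 = 0 := by decide +kernel
theorem ck210 : checkRange tbl 4038 18 = 0 := by decide +kernel
theorem ck211 : checkRange tbl 4056 17 = 0 := by decide +kernel
theorem ck212 : checkRange tbl 4073 16 = 0 := by decide +kernel
theorem ck213 : checkRange tbl 4089 17 = 0 := by decide +kernel
theorem ck214 : checkRange tbl 4106 17 = 0 := by decide +kernel
theorem ck215 : checkRange tbl 4123 17 = 0 := by decide +kernel
theorem ck216 : checkRange tbl 4140 16 = 0 := by decide +kernel
theorem ck217 : checkRange tbl 4156 17 = 0 := by decide +kernel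
theorem ck218 : checkRange tbl 4173 17 = 0 := by decide +kernel
theorem ck219 : checkRange tbl 4190 19 = 0 := by decide +kernel
theorem ck220 : checkRange tbl 4209 16 = 0 := by decide +kernel
theorem ck221 : checkRange tbl 4225 17 = 0 := by decide +kernel
theorem ck222 : checkRange tbl 4242 18 = 0 := by decide +kernel
theorem ck223 : checkRange tbl 4260 17 = 0 := by decide +kernel
theorem ck224 : checkRange tbl 4277 15 = 0 := by decide +kernel
theorem ck225 : checkRange tbl 4292 18 = 0 := by decide +kernel
theorem ck226 : checkRange tbl 4310 17 = 0 := by decide +kernel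
theorem ck227 : checkRange tbl 4327 18 = 0 := by decide +kernel
theorem ck228 : checkRange tbl 4345 18 = 0 := by decide +kernel
theorem ck229 : checkRange tbl 4363 16 = 0 := by decide +kernel
theorem ck230 : checkRange tbl 4379 19 = 0 := by decide +kernel
theorem ck231 : checkRange tbl 4398 17 = 0 := by decide +kernel
theorem ck232 : checkRange tbl 4415 17 = 0 := by decide +kernel
theorem ck233 : checkRange tbl 4432 16 = 0 := by decide +kernel
theorem ck234 : checkRange tbl 4448 18 = 0 := by decide +kernel
theorem ck235 : checkRange tbl 4466 19 = 0 := by decide +kernel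
theorem ck236 : checkRange tbl 4485 18 = 0 := by decide +kernel
theorem ck237 : checkRange tbl 4503 18 = 0 := by decide +kernel
theorem ck238 : checkRange tbl 4521 18 = 0 := by decide +kernel
theorem ck239 : checkRange tbl 4539 16 = 0 := by decide +kernel
theorem ck240 : checkRange tbl 4555 18 = 0 := by decide +kernel
theorem ck241 : checkRange tbl 4573 19 = 0 := by decide +kernel
theorem ck242 : checkRange tbl 4592 19 = 0 := by decide +kernel
theorem ck243 : checkRange tbl 4611 18 = 0 := by decide +kernel
theorem ck244 : checkRange tbl 4629 18 = 0 := by decide +kernel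
theorem ck245 : checkRange tbl 4647 18 = 0 := by decide +kernel
theorem ck246 : checkRange tbl 4665 19 = 0 := by decide +kernel
theorem ck247 : checkRange tbl 4684 19 = 0 := by decide +kernel
theorem ck248 : checkRange tbl 4703 18 = 0 := by decide +kernel
theorem ck249 : checkRange tbl 4721 18 = 0 := by decide +kernel
theorem ck250 : checkRange tbl 4739 18 = 0 := by decide +kernel
theorem ck251 : checkRange tbl 4757 19 = 0 := by decide +kernel
theorem ck252 : checkRange tbl 4776 19 = 0 := by decide +kernel
theorem ck253 : checkRange tbl 4795 18 = 0 := by decide +kernel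
theorem ck254 : checkRange tbl 4813 18 = 0 := by decide +kernel
theorem ck255 : checkRange tbl 4831 19 = 0 := by decide +kernel

theorem rng3 : RangeOK tbl 3732 1118 := RangeOK.join (RangeOK.join (RangeOK.join (RangeOK.join (RangeOK.join (RangeOK.join (RangeOK.of_check ck192) (RangeOK.of_check ck193) (Eq.refl 3750)) (RangeOK.join (RangeOK.of_check ck194) (RangeOK.of_check ck195) (Eq.refl 3784)) (Eq.refl 3766)) (RangeOK.join (RangeOK.join (RangeOK.of_check ck196) (RangeOK.of_check ck197) (Eq.refl 3817)) (RangeOK.join (RangeOK.of_check ck198) (RangeOK.of_check ck199) (Eq.refl 3850)) (Eq.refl 3833)) (Eq.refl 3800)) (RangeOK.join (RangeOK.join (RangeOK.join (RangeOK.of_check ck200) (RangeOK.of_check ck201) (Eq.refl 3885)) (RangeOK.join (RangeOK.of_check ck202) (RangeOK.of_check ck203) (Eq.refl 3920)) (Eq.refl 3903)) (RangeOK.join (RangeOK.join (RangeOK.of_check ck204) (RangeOK.of_check ck205) (Eq.refl 3954)) (RangeOK.join (RangeOK.of_check ck206) (RangeOK.of_check ck207) (Eq.refl 3988)) (Eq.refl 3971)) (Eq.refl 3937)) (Eq.refl 3867)) (RangeOK.join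 (RangeOK.join (RangeOK.join (RangeOK.join (RangeOK.of_check ck208) (RangeOK.of_check ck209) (Eq.refl 4022)) (RangeOK.join (RangeOK.of_check ck210) (RangeOK.of_check ck211) (Eq.refl 4056)) (Eq.refl 4038)) (RangeOK.join (RangeOK.join (RangeOK.of_check ck212) (RangeOK.of_check ck213) (Eq.refl 4089)) (RangeOK.join (RangeOK.of_check ck214) (RangeOK.of_check ck215) (Eq.refl 4123)) (Eq.refl 4106)) (Eq.refl 4073)) (RangeOK.join (RangeOK.join (RangeOK.join (RangeOK.of_check ck216) (RangeOK.of_check ck217) (Eq.refl 4156)) (RangeOK.join (RangeOK.of_check ck218) (RangeOK.of_check ck219) (Eq.refl 4190)) (Eq.refl 4173)) (RangeOK.join (RangeOK.join (RangeOK.of_check ck220) (RangeOK.of_check ck221) (Eq.refl 4225)) (RangeOK.join (RangeOK.of_check ck222) (RangeOK.of_check ck223) (Eq.refl 4260)) (Eq.refl 4242)) (Eq.refl 4209)) (Eq.refl 4140)) (Eq.refl 4005)) (RangeOK.join (RangeOK.join (RangeOK.join (RangeOK.join (RangeOK.join (RangeOK.of_check ck224) (RangeOK.of_check ck225) (Eq.refl 4292)) (RangeOK.join (RangeOK.of_check ck226) (RangeOK.of_check ck227)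 (Eq.refl 4327)) (Eq.refl 4310)) (RangeOK.join (RangeOK.join (RangeOK.of_check ck228) (RangeOK.of_check ck229) (Eq.refl 4363)) (RangeOK.join (RangeOK.of_check ck230) (RangeOK.of_check ck231) (Eq.refl 4398)) (Eq.refl 4379)) (Eq.refl 4345)) (RangeOK.join (RangeOK.join (RangeOK.join (RangeOK.of_check ck232) (RangeOK.of_check ck233) (Eq.refl 4432)) (RangeOK.join (RangeOK.of_check ck234) (RangeOK.of_check ck235) (Eq.refl 4466)) (Eq.refl 4448)) (RangeOK.join (RangeOK.join (RangeOK.of_check ck236) (RangeOK.of_check ck237) (Eq.refl 4503)) (RangeOK.join (RangeOK.of_check ck238) (RangeOK.of_check ck239) (Eq.refl 4539)) (Eq.refl 4521)) (Eq.refl 4485)) (Eq.refl 4415)) (RangeOK.join (RangeOK.join (RangeOK.join (RangeOK.join (RangeOK.of_check ck240) (RangeOK.of_check ck241) (Eq.refl 4573)) (RangeOK.join (RangeOK.of_check ck242) (RangeOK.of_check ck243) (Eq.refl 4611)) (Eq.refl 4592)) (RangeOK.join (RangeOK.join (RangeOK.of_check ck244) (RangeOK.of_check ck245) (Eq.refl 4647)) (RangeOK.join (RangeOK.of_check ck246) (RangeOK.of_check ck247) (Eq.refl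 4684)) (Eq.refl 4665)) (Eq.refl 4629)) (RangeOK.join (RangeOK.join (RangeOK.join (RangeOK.of_check ck248) (RangeOK.of_check ck249) (Eq.refl 4721)) (RangeOK.join (RangeOK.of_check ck250) (RangeOK.of_check ck251) (Eq.refl 4757)) (Eq.refl 4739)) (RangeOK.join (RangeOK.join (RangeOK.of_check ck252) (RangeOK.of_check ck253) (Eq.refl 4795)) (RangeOK.join (RangeOK.of_check ck254) (RangeOK.of_check ck255) (Eq.refl 4831)) (Eq.refl 4813)) (Eq.refl 4776)) (Eq.refl 4703)) (Eq.refl 4555)) (Eq.refl 4277)

end Vale.Agent.Snaky.P2
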