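import Vale.Agent.Snaky.P2.Tbl

namespace Vale.Agent.Snaky.P2

theorem ck256 : checkRange tbl 4850 19 = 0 := by decide +kernel
theorem ck257 : checkRange tbl 4869 19 = 0 := by decide +kernel
theorem ck258 : checkRange tbl 4888 18 = 0 := by decide +kernel
theorem ck259 : checkRange tbl 4906 19 = 0 := by decide +kernel
theorem ck260 : checkRange tbl 4925 17 = 0 := by decide +kernel
theorem ck261 : checkRange tbl 4942 19 = 0 := by decide +kernel
theorem ck262 : checkRange tbl 4961 16 = 0 := by decide +kernel
theorem ck263 : checkRange tbl 4977 18 = 0 := by decide +kernel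
theorem ck264 : checkRange tbl 4995 17 = 0 := by decide +kernel
theorem ck265 : checkRange tbl 5012 18 = 0 := by decide +kernel
theorem ck266 : checkRange tbl 5030 18 = 0 := by decide +kernel
theorem ck267 : checkRange tbl 5048 18 = 0 := by decide +kernel
theorem ck268 : checkRange tbl 5066 18 = 0 := by decide +kernel
theorem ck269 : checkRange tbl 5084 18 = 0 := by decide +kernel
theorem ck270 : checkRange tbl 5102 18 = 0 := by decide +kernel
theorem ck271 : checkRange tbl 5120 17 = 0 := by decide +kernel
theorem ck272 : checkRange tbl 5137 18 = 0 := by decide +kernel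
theorem ck273 : checkRange tbl 5155 17 = 0 := by decide +kernel
theorem ck274 : checkRange tbl 5172 18 = 0 := by decide +kernel
theorem ck275 : checkRange tbl 5190 19 = 0 := by decide +kernel
theorem ck276 : checkRange tbl 5209 19 = 0 := by decide +kernel
theorem ck277 : checkRange tbl 5228 19 = 0 := by decide +kernel
theorem ck278 : checkRange tbl 5247 18 = 0 := by decide +kernel
theorem ck279 : checkRange tbl 5265 19 = 0 := by decide +kernel
theorem ck280 : checkRange tbl 5284 17 = 0 := by decide +kernel
theorem ck281 : checkRange tbl 5301 15 = 0 := by decide +kernel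
theorem ck282 : checkRange tbl 5316 17 = 0 := by decide +kernel
theorem ck283 : checkRange tbl 5333 18 = 0 := by decide +kernel
theorem ck284 : checkRange tbl 5351 15 = 0 := by decide +kernel
theorem ck285 : checkRange tbl 5366 17 = 0 := by decide +kernel
theorem ck286 : checkRange tbl 5383 15 = 0 := by decide +kernel
theorem ck287 : checkRange tbl 5398 13 = 0 := by decide +kernel
theorem ck288 : checkRange tbl 5411 18 = 0 := by decide +kernel
theorem ck289 : checkRange tbl 5429 17 = 0 := by decide +kernel
theorem ck290 : checkRange tbl 5446 16 = 0 := by decide +kernel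
theorem ck291 : checkRange tbl 5462 17 = 0 := by decide +kernel
theorem ck292 : checkRange tbl 5479 16 = 0 := by decide +kernel
theorem ck293 : checkRange tbl 5495 14 = 0 := by decide +kernel
theorem ck294 : checkRange tbl 5509 15 = 0 := by decide +kernel
theorem ck295 : checkRange tbl 5524 18 = 0 := by decide +kernel
theorem ck296 : checkRange tbl 5542 16 = 0 := by decide +kernel
theorem ck297 : checkRange tbl 5558 21 = 0 := by decide +kernel
theorem ck298 : checkRange tbl 5579 23 = 0 := by decide +kernel
theorem ck299 : checkRange tbl 5602 19 = 0 := by decide +kernel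
theorem ck300 : checkRange tbl 5621 21 = 0 := by decide +kernel
theorem ck301 : checkRange tbl 5642 19 = 0 := by decide +kernel
theorem ck302 : checkRange tbl 5661 20 = 0 := by decide +kernel
theorem ck303 : checkRange tbl 5681 20 = 0 := by decide +kernel
theorem ck304 : checkRange tbl 5701 15 = 0 := by decide +kernel
theorem ck305 : checkRange tbl 5716 20 = 0 := by decide +kernel
theorem ck306 : checkRange tbl 5736 20 = 0 := by decide +kernel
theorem ck307 : checkRange tbl 5756 20 = 0 := by decide +kernel
theorem ck308 : checkRange tbl 5776 16 = 0 := by decide +kernel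
theorem ck309 : checkRange tbl 5792 19 = 0 := by decide +kernel
theorem ck310 : checkRange tbl 5811 19 = 0 := by decide +kernel
theorem ck311 : checkRange tbl 5830 17 = 0 := by decide +kernel
theorem ck312 : checkRange tbl 5847 20 = 0 := by decide +kernel
theorem ck313 : checkRange tbl 5867 19 = 0 := by decide +kernel
theorem ck314 : checkRange tbl 5886 16 = 0 := by decide +kernel
theorem ck315 : checkRange tbl 5902 15 = 0 := by decide +kernel
theorem ck316 : checkRange tbl 5917 23 = 0 := by decide +kernel
theorem ck317 : checkRange tbl 5940 21 = 0 := by decide +kernel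
theorem ck318 : checkRange tbl 5961 21 = 0 := by decide +kernel
theorem ck319 : checkRange tbl 5982 22 = 0 := by decide +kernel

theorem rng4 : RangeOK tbl 4850 1154 := RangeOK.join (RangeOK.join (RangeOK.join (RangeOK.join (RangeOK.join (RangeOK.join (RangeOK.of_check ck256) (RangeOK.of_check ck257) (Eq.refl 4869)) (RangeOK.join (RangeOK.of_check ck258) (RangeOK.of_check ck259) (Eq.refl 4906)) (Eq.refl 4888)) (RangeOK.join (RangeOK.join (RangeOK.of_check ck260) (RangeOK.of_check ck261) (Eq.refl 4942)) (RangeOK.join (RangeOK.of_check ck262) (RangeOK.of_check ck263) (Eq.refl 4977)) (Eq.refl 4961)) (Eq.refl 4925)) (RangeOK.join (RangeOK.join (RangeOK.join (RangeOK.of_check ck264) (RangeOK.of_check ck265) (Eq.refl 5012)) (RangeOK.join (RangeOK.of_check ck266) (RangeOK.of_check ck267) (Eq.refl 5048)) (Eq.refl 5030)) (RangeOK.join (RangeOK.join (RangeOK.of_check ck268) (RangeOK.of_check ck269) (Eq.refl 5084)) (RangeOK.join (RangeOK.of_check ck270) (RangeOK.of_check ck271) (Eq.refl 5120)) (Eq.refl 5102)) (Eq.refl 5066)) (Eq.refl 4995)) (RangeOK.join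 (RangeOK.join (RangeOK.join (RangeOK.join (RangeOK.of_check ck272) (RangeOK.of_check ck273) (Eq.refl 5155)) (RangeOK.join (RangeOK.of_check ck274) (RangeOK.of_check ck275) (Eq.refl 5190)) (Eq.refl 5172)) (RangeOK.join (RangeOK.join (RangeOK.of_check ck276) (RangeOK.of_check ck277) (Eq.refl 5228)) (RangeOK.join (RangeOK.of_check ck278) (RangeOK.of_check ck279) (Eq.refl 5265)) (Eq.refl 5247)) (Eq.refl 5209)) (RangeOK.join (RangeOK.join (RangeOK.join (RangeOK.of_check ck280) (RangeOK.of_check ck281) (Eq.refl 5301)) (RangeOK.join (RangeOK.of_check ck282) (RangeOK.of_check ck283) (Eq.refl 5333)) (Eq.refl 5316)) (RangeOK.join (RangeOK.join (RangeOK.of_check ck284) (RangeOK.of_check ck285) (Eq.refl 5366)) (RangeOK.join (RangeOK.of_check ck286) (RangeOK.of_check ck287) (Eq.refl 5398)) (Eq.refl 5383)) (Eq.refl 5351)) (Eq.refl 5284)) (Eq.refl 5137)) (RangeOK.join (RangeOK.join (RangeOK.join (RangeOK.join (RangeOK.join (RangeOK.of_check ck288) (RangeOK.of_check ck289) (Eq.refl 5429)) (RangeOK.join (RangeOK.of_check ck290) (RangeOK.of_check ck291)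 (Eq.refl 5462)) (Eq.refl 5446)) (RangeOK.join (RangeOK.join (RangeOK.of_check ck292) (RangeOK.of_check ck293) (Eq.refl 5495)) (RangeOK.join (RangeOK.of_check ck294) (RangeOK.of_check ck295) (Eq.refl 5524)) (Eq.refl 5509)) (Eq.refl 5479)) (RangeOK.join (RangeOK.join (RangeOK.join (RangeOK.of_check ck296) (RangeOK.of_check ck297) (Eq.refl 5558)) (RangeOK.join (RangeOK.of_check ck298) (RangeOK.of_check ck299) (Eq.refl 5602)) (Eq.refl 5579)) (RangeOK.join (RangeOK.join (RangeOK.of_check ck300) (RangeOK.of_check ck301) (Eq.refl 5642)) (RangeOK.join (RangeOK.of_check ck302) (RangeOK.of_check ck303) (Eq.refl 5681)) (Eq.refl 5661)) (Eq.refl 5621)) (Eq.refl 5542)) (RangeOK.join (RangeOK.join (RangeOK.join (RangeOK.join (RangeOK.of_check ck304) (RangeOK.of_check ck305) (Eq.refl 5716)) (RangeOK.join (RangeOK.of_check ck306) (RangeOK.of_check ck307) (Eq.refl 5756)) (Eq.refl 5736)) (RangeOK.join (RangeOK.join (RangeOK.of_check ck308) (RangeOK.of_check ck309) (Eq.refl 5792)) (RangeOK.join (RangeOK.of_check ck310) (RangeOK.of_check ck311) (Eq.refl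 5830)) (Eq.refl 5811)) (Eq.refl 5776)) (RangeOK.join (RangeOK.join (RangeOK.join (RangeOK.of_check ck312) (RangeOK.of_check ck313) (Eq.refl 5867)) (RangeOK.join (RangeOK.of_check ck314) (RangeOK.of_check ck315) (Eq.refl 5902)) (Eq.refl 5886)) (RangeOK.join (RangeOK.join (RangeOK.of_check ck316) (RangeOK.of_check ck317) (Eq.refl 5940)) (RangeOK.join (RangeOK.of_check ck318) (RangeOK.of_check ck319) (Eq.refl 5982)) (Eq.refl 5961)) (Eq.refl 5917)) (Eq.refl 5847)) (Eq.refl 5701)) (Eq.refl 5411)

end Vale.Agent.Snaky.P2
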