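import Vale.Agent.Snaky.P2.Tbl

namespace Vale.Agent.Snaky.P2

theorem ck320 : checkRange tbl 6004 16 = 0 := by decide +kernel
theorem ck321 : checkRange tbl 6020 23 = 0 := by decide +kernel
theorem ck322 : checkRange tbl 6043 25 = 0 := by decide +kernel
theorem ck323 : checkRange tbl 6068 21 = 0 := by decide +kernel
theorem ck324 : checkRange tbl 6089 20 = 0 := by decide +kernel
theorem ck325 : checkRange tbl 6109 17 = 0 := by decide +kernel
theorem ck326 : checkRange tbl 6126 20 = 0 := by decide +kernel
theorem ck327 : checkRange tbl 6146 24 = 0 := by decide +kernel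
theorem ck328 : checkRange tbl 6170 20 = 0 := by decide +kernel
theorem ck329 : checkRange tbl 6190 22 = 0 := by decide +kernel
theorem ck330 : checkRange tbl 6212 23 = 0 := by decide +kernel
theorem ck331 : checkRange tbl 6235 16 = 0 := by decide +kernel
theorem ck332 : checkRange tbl 6251 22 = 0 := by decide +kernel
theorem ck333 : checkRange tbl 6273 22 = 0 := by decide +kernel
theorem ck334 : checkRange tbl 6295 20 = 0 := by decide +kernel
theorem ck335 : checkRange tbl 6315 24 = 0 := by decide +kernel
theorem ck336 : checkRange tbl 6339 19 = 0 := by decide +kernel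
theorem ck337 : checkRange tbl 6358 21 = 0 := by decide +kernel
theorem ck338 : checkRange tbl 6379 23 = 0 := by decide +kernel
theorem ck339 : checkRange tbl 6402 24 = 0 := by decide +kernel
theorem ck340 : checkRange tbl 6426 28 = 0 := by decide +kernel
theorem ck341 : checkRange tbl 6454 22 = 0 := by decide +kernel
theorem ck342 : checkRange tbl 6476 29 = 0 := by decide +kernel
theorem ck343 : checkRange tbl 6505 25 = 0 := by decide +kernel
theorem ck344 : checkRange tbl 6530 22 = 0 := by decide +kernel
theorem ck345 : checkRange tbl 6552 20 = 0 := by decide +kernel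
theorem ck346 : checkRange tbl 6572 20 = 0 := by decide +kernel
theorem ck347 : checkRange tbl 6592 23 = 0 := by decide +kernel
theorem ck348 : checkRange tbl 6615 20 = 0 := by decide +kernel
theorem ck349 : checkRange tbl 6635 19 = 0 := by decide +kernel
theorem ck350 : checkRange tbl 6654 28 = 0 := by decide +kernel
theorem ck351 : checkRange tbl 6682 21 = 0 := by decide +kernel
theorem ck352 : checkRange tbl 6703 24 = 0 := by decide +kernel
theorem ck353 : checkRange tbl 6727 22 = 0 := by decide +kernel
theorem ck354 : checkRange tbl 6749 22 = 0 := by decide +kernel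
theorem ck355 : checkRange tbl 6771 19 = 0 := by decide +kernel
theorem ck356 : checkRange tbl 6790 24 = 0 := by decide +kernel
theorem ck357 : checkRange tbl 6814 24 = 0 := by decide +kernel
theorem ck358 : checkRange tbl 6838 26 = 0 := by decide +kernel
theorem ck359 : checkRange tbl 6864 21 = 0 := by decide +kernel
theorem ck360 : checkRange tbl 6885 23 = 0 := by decide +kernel
theorem ck361 : checkRange tbl 6908 24 = 0 := by decide +kernel
theorem ck362 : checkRange tbl 6932 25 = 0 := by decide +kernel
theorem ck363 : checkRange tbl 6957 22 = 0 := by decide +kernel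
theorem ck364 : checkRange tbl 6979 24 = 0 := by decide +kernel
theorem ck365 : checkRange tbl 7003 26 = 0 := by decide +kernel
theorem ck366 : checkRange tbl 7029 24 = 0 := by decide +kernel
theorem ck367 : checkRange tbl 7053 24 = 0 := by decide +kernel
theorem ck368 : checkRange tbl 7077 22 = 0 := by decide +kernel
theorem ck369 : checkRange tbl 7099 24 = 0 := by decide +kernel
theorem ck370 : checkRange tbl 7123 27 = 0 := by decide +kernel
theorem ck371 : checkRange tbl 7150 24 = 0 := by decide +kernel
theorem ck372 : checkRange tbl 7174 23 = 0 := by decide +kernel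
theorem ck373 : checkRange tbl 7197 30 = 0 := by decide +kernel
theorem ck374 : checkRange tbl 7227 24 = 0 := by decide +kernel
theorem ck375 : checkRange tbl 7251 27 = 0 := by decide +kernel
theorem ck376 : checkRange tbl 7278 24 = 0 := by decide +kernel
theorem ck377 : checkRange tbl 7302 28 = 0 := by decide +kernel
theorem ck378 : checkRange tbl 7330 26 = 0 := by decide +kernel
theorem ck379 : checkRange tbl 7356 27 = 0 := by decide +kernel
theorem ck380 : checkRange tbl 7383 26 = 0 := by decide +kernel
theorem ck381 : checkRange tbl 7409 30 = 0 := by decide +kernel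
theorem ck382 : checkRange tbl 7439 30 = 0 := by decide +kernel
theorem ck383 : checkRange tbl 7469 30 = 0 := by decide +kernel

theorem rng5 : RangeOK tbl 6004 1495 := RangeOK.join (RangeOK.join (RangeOK.join (RangeOK.join (RangeOK.join (RangeOK.join (RangeOK.of_check ck320) (RangeOK.of_check ck321) (Eq.refl 6020)) (RangeOK.join (RangeOK.of_check ck322) (RangeOK.of_check ck323) (Eq.refl 6068)) (Eq.refl 6043)) (RangeOK.join (RangeOK.join (RangeOK.of_check ck324) (RangeOK.of_check ck325) (Eq.refl 6109)) (RangeOK.join (RangeOK.of_check ck326) (RangeOK.of_check ck327) (Eq.refl 6146)) (Eq.refl 6126)) (Eq.refl 6089)) (RangeOK.join (RangeOK.join (RangeOK.join (RangeOK.of_check ck328) (RangeOK.of_check ck329) (Eq.refl 6190)) (RangeOK.join (RangeOK.of_check ck330) (RangeOK.of_check ck331) (Eq.refl 6235)) (Eq.refl 6212)) (RangeOK.join (RangeOK.join (RangeOK.of_check ck332) (RangeOK.of_check ck333) (Eq.refl 6273)) (RangeOK.join (RangeOK.of_check ck334) (RangeOK.of_check ck335) (Eq.refl 6315)) (Eq.refl 6295)) (Eq.refl 6251)) (Eq.refl 6170)) (RangeOK.join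 (RangeOK.join (RangeOK.join (RangeOK.join (RangeOK.of_check ck336) (RangeOK.of_check ck337) (Eq.refl 6358)) (RangeOK.join (RangeOK.of_check ck338) (RangeOK.of_check ck339) (Eq.refl 6402)) (Eq.refl 6379)) (RangeOK.join (RangeOK.join (RangeOK.of_check ck340) (RangeOK.of_check ck341) (Eq.refl 6454)) (RangeOK.join (RangeOK.of_check ck342) (RangeOK.of_check ck343) (Eq.refl 6505)) (Eq.refl 6476)) (Eq.refl 6426)) (RangeOK.join (RangeOK.join (RangeOK.join (RangeOK.of_check ck344) (RangeOK.of_check ck345) (Eq.refl 6552)) (RangeOK.join (RangeOK.of_check ck346) (RangeOK.of_check ck347) (Eq.refl 6592)) (Eq.refl 6572)) (RangeOK.join (RangeOK.join (RangeOK.of_check ck348) (RangeOK.of_check ck349) (Eq.refl 6635)) (RangeOK.join (RangeOK.of_check ck350) (RangeOK.of_check ck351) (Eq.refl 6682)) (Eq.refl 6654)) (Eq.refl 6615)) (Eq.refl 6530)) (Eq.refl 6339)) (RangeOK.join (RangeOK.join (RangeOK.join (RangeOK.join (RangeOK.join (RangeOK.of_check ck352) (RangeOK.of_check ck353) (Eq.refl 6727)) (RangeOK.join (RangeOK.of_check ck354) (RangeOK.of_check ck355)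 (Eq.refl 6771)) (Eq.refl 6749)) (RangeOK.join (RangeOK.join (RangeOK.of_check ck356) (RangeOK.of_check ck357) (Eq.refl 6814)) (RangeOK.join (RangeOK.of_check ck358) (RangeOK.of_check ck359) (Eq.refl 6864)) (Eq.refl 6838)) (Eq.refl 6790)) (RangeOK.join (RangeOK.join (RangeOK.join (RangeOK.of_check ck360) (RangeOK.of_check ck361) (Eq.refl 6908)) (RangeOK.join (RangeOK.of_check ck362) (RangeOK.of_check ck363) (Eq.refl 6957)) (Eq.refl 6932)) (RangeOK.join (RangeOK.join (RangeOK.of_check ck364) (RangeOK.of_check ck365) (Eq.refl 7003)) (RangeOK.join (RangeOK.of_check ck366) (RangeOK.of_check ck367) (Eq.refl 7053)) (Eq.refl 7029)) (Eq.refl 6979)) (Eq.refl 6885)) (RangeOK.join (RangeOK.join (RangeOK.join (RangeOK.join (RangeOK.of_check ck368) (RangeOK.of_check ck369) (Eq.refl 7099)) (RangeOK.join (RangeOK.of_check ck370) (RangeOK.of_check ck371) (Eq.refl 7150)) (Eq.refl 7123)) (RangeOK.join (RangeOK.join (RangeOK.of_check ck372) (RangeOK.of_check ck373) (Eq.refl 7197)) (RangeOK.join (RangeOK.of_check ck374) (RangeOK.of_check ck375) (Eq.refl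 7251)) (Eq.refl 7227)) (Eq.refl 7174)) (RangeOK.join (RangeOK.join (RangeOK.join (RangeOK.of_check ck376) (RangeOK.of_check ck377) (Eq.refl 7302)) (RangeOK.join (RangeOK.of_check ck378) (RangeOK.of_check ck379) (Eq.refl 7356)) (Eq.refl 7330)) (RangeOK.join (RangeOK.join (RangeOK.of_check ck380) (RangeOK.of_check ck381) (Eq.refl 7409)) (RangeOK.join (RangeOK.of_check ck382) (RangeOK.of_check ck383) (Eq.refl 7469)) (Eq.refl 7439)) (Eq.refl 7383)) (Eq.refl 7278)) (Eq.refl 7077)) (Eq.refl 6703)

end Vale.Agent.Snaky.P2
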