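import Vale.Agent.Snaky.P2.Tbl

namespace Vale.Agent.Snaky.P2

theorem ck384 : checkRange tbl 7499 27 = 0 := by decide +kernel
theorem ck385 : checkRange tbl 7526 30 = 0 := by decide +kernel
theorem ck386 : checkRange tbl 7556 28 = 0 := by decide +kernel
theorem ck387 : checkRange tbl 7584 30 = 0 := by decide +kernel
theorem ck388 : checkRange tbl 7614 19 = 0 := by decide +kernel
theorem ck389 : checkRange tbl 7633 15 = 0 := by decide +kernel
theorem ck390 : checkRange tbl 7648 16 = 0 := by decide +kernel
theorem ck391 : checkRange tbl 7664 15 = 0 := by decide +kernel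
theorem ck392 : checkRange tbl 7679 13 = 0 := by decide +kernel
theorem ck393 : checkRange tbl 7692 15 = 0 := by decide +kernel
theorem ck394 : checkRange tbl 7707 16 = 0 := by decide +kernel
theorem ck395 : checkRange tbl 7723 15 = 0 := by decide +kernel
theorem ck396 : checkRange tbl 7738 15 = 0 := by decide +kernel
theorem ck397 : checkRange tbl 7753 14 = 0 := by decide +kernel
theorem ck398 : checkRange tbl 7767 13 = 0 := by decide +kernel
theorem ck399 : checkRange tbl 7780 18 = 0 := by decide +kernel
theorem ck400 : checkRange tbl 7798 18 = 0 := by decide +kernel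
theorem ck401 : checkRange tbl 7816 17 = 0 := by decide +kernel
theorem ck402 : checkRange tbl 7833 15 = 0 := by decide +kernel
theorem ck403 : checkRange tbl 7848 17 = 0 := by decide +kernel
theorem ck404 : checkRange tbl 7865 17 = 0 := by decide +kernel
theorem ck405 : checkRange tbl 7882 16 = 0 := by decide +kernel
theorem ck406 : checkRange tbl 7898 17 = 0 := by decide +kernel
theorem ck407 : checkRange tbl 7915 15 = 0 := by decide +kernel
theorem ck408 : checkRange tbl 7930 16 = 0 := by decide +kernel
theorem ck409 : checkRange tbl 7946 15 = 0 := by decide +kernel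
theorem ck410 : checkRange tbl 7961 15 = 0 := by decide +kernel
theorem ck411 : checkRange tbl 7976 16 = 0 := by decide +kernel
theorem ck412 : checkRange tbl 7992 18 = 0 := by decide +kernel
theorem ck413 : checkRange tbl 8010 16 = 0 := by decide +kernel
theorem ck414 : checkRange tbl 8026 16 = 0 := by decide +kernel
theorem ck415 : checkRange tbl 8042 16 = 0 := by decide +kernel
theorem ck416 : checkRange tbl 8058 16 = 0 := by decide +kernel
theorem ck417 : checkRange tbl 8074 15 = 0 := by decide +kernel
theorem ck418 : checkRange tbl 8089 15 = 0 := by decide +kernel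
theorem ck419 : checkRange tbl 8104 17 = 0 := by decide +kernel
theorem ck420 : checkRange tbl 8121 17 = 0 := by decide +kernel
theorem ck421 : checkRange tbl 8138 16 = 0 := by decide +kernel
theorem ck422 : checkRange tbl 8154 16 = 0 := by decide +kernel
theorem ck423 : checkRange tbl 8170 15 = 0 := by decide +kernel
theorem ck424 : checkRange tbl 8185 16 = 0 := by decide +kernel
theorem ck425 : checkRange tbl 8201 16 = 0 := by decide +kernel
theorem ck426 : checkRange tbl 8217 16 = 0 := by decide +kernel
theorem ck427 : checkRange tbl 8233 16 = 0 := by decide +kernel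
theorem ck428 : checkRange tbl 8249 16 = 0 := by decide +kernel
theorem ck429 : checkRange tbl 8265 17 = 0 := by decide +kernel
theorem ck430 : checkRange tbl 8282 17 = 0 := by decide +kernel
theorem ck431 : checkRange tbl 8299 15 = 0 := by decide +kernel
theorem ck432 : checkRange tbl 8314 16 = 0 := by decide +kernel
theorem ck433 : checkRange tbl 8330 15 = 0 := by decide +kernel
theorem ck434 : checkRange tbl 8345 14 = 0 := by decide +kernel
theorem ck435 : checkRange tbl 8359 15 = 0 := by decide +kernel
theorem ck436 : checkRange tbl 8374 17 = 0 := by decide +kernel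
theorem ck437 : checkRange tbl 8391 16 = 0 := by decide +kernel
theorem ck438 : checkRange tbl 8407 18 = 0 := by decide +kernel
theorem ck439 : checkRange tbl 8425 16 = 0 := by decide +kernel
theorem ck440 : checkRange tbl 8441 17 = 0 := by decide +kernel
theorem ck441 : checkRange tbl 8458 16 = 0 := by decide +kernel
theorem ck442 : checkRange tbl 8474 17 = 0 := by decide +kernel
theorem ck443 : checkRange tbl 8491 16 = 0 := by decide +kernel
theorem ck444 : checkRange tbl 8507 16 = 0 := by decide +kernel
theorem ck445 : checkRange tbl 8523 15 = 0 := by decide +kernel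
theorem ck446 : checkRange tbl 8538 17 = 0 := by decide +kernel
theorem ck447 : checkRange tbl 8555 17 = 0 := by decide +kernel

theorem rng6 : RangeOK tbl 7499 1073 := RangeOK.join (RangeOK.join (RangeOK.join (RangeOK.join (RangeOK.join (RangeOK.join (RangeOK.of_check ck384) (RangeOK.of_check ck385) (Eq.refl 7526)) (RangeOK.join (RangeOK.of_check ck386) (RangeOK.of_check ck387) (Eq.refl 7584)) (Eq.refl 7556)) (RangeOK.join (RangeOK.join (RangeOK.of_check ck388) (RangeOK.of_check ck389) (Eq.refl 7633)) (RangeOK.join (RangeOK.of_check ck390) (RangeOK.of_check ck391) (Eq.refl 7664)) (Eq.refl 7648)) (Eq.refl 7614)) (RangeOK.join (RangeOK.join (RangeOK.join (RangeOK.of_check ck392) (RangeOK.of_check ck393) (Eq.refl 7692)) (RangeOK.join (RangeOK.of_check ck394) (RangeOK.of_check ck395) (Eq.refl 7723)) (Eq.refl 7707)) (RangeOK.join (RangeOK.join (RangeOK.of_check ck396) (RangeOK.of_check ck397) (Eq.refl 7753)) (RangeOK.join (RangeOK.of_check ck398) (RangeOK.of_check ck399) (Eq.refl 7780)) (Eq.refl 7767)) (Eq.refl 7738)) (Eq.refl 7679)) (RangeOK.join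 (RangeOK.join (RangeOK.join (RangeOK.join (RangeOK.of_check ck400) (RangeOK.of_check ck401) (Eq.refl 7816)) (RangeOK.join (RangeOK.of_check ck402) (RangeOK.of_check ck403) (Eq.refl 7848)) (Eq.refl 7833)) (RangeOK.join (RangeOK.join (RangeOK.of_check ck404) (RangeOK.of_check ck405) (Eq.refl 7882)) (RangeOK.join (RangeOK.of_check ck406) (RangeOK.of_check ck407) (Eq.refl 7915)) (Eq.refl 7898)) (Eq.refl 7865)) (RangeOK.join (RangeOK.join (RangeOK.join (RangeOK.of_check ck408) (RangeOK.of_check ck409) (Eq.refl 7946)) (RangeOK.join (RangeOK.of_check ck410) (RangeOK.of_check ck411) (Eq.refl 7976)) (Eq.refl 7961)) (RangeOK.join (RangeOK.join (RangeOK.of_check ck412) (RangeOK.of_check ck413) (Eq.refl 8010)) (RangeOK.join (RangeOK.of_check ck414) (RangeOK.of_check ck415) (Eq.refl 8042)) (Eq.refl 8026)) (Eq.refl 7992)) (Eq.refl 7930)) (Eq.refl 7798)) (RangeOK.join (RangeOK.join (RangeOK.join (RangeOK.join (RangeOK.join (RangeOK.of_check ck416) (RangeOK.of_check ck417) (Eq.refl 8074)) (RangeOK.join (RangeOK.of_check ck418) (RangeOK.of_check ck419)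 (Eq.refl 8104)) (Eq.refl 8089)) (RangeOK.join (RangeOK.join (RangeOK.of_check ck420) (RangeOK.of_check ck421) (Eq.refl 8138)) (RangeOK.join (RangeOK.of_check ck422) (RangeOK.of_check ck423) (Eq.refl 8170)) (Eq.refl 8154)) (Eq.refl 8121)) (RangeOK.join (RangeOK.join (RangeOK.join (RangeOK.of_check ck424) (RangeOK.of_check ck425) (Eq.refl 8201)) (RangeOK.join (RangeOK.of_check ck426) (RangeOK.of_check ck427) (Eq.refl 8233)) (Eq.refl 8217)) (RangeOK.join (RangeOK.join (RangeOK.of_check ck428) (RangeOK.of_check ck429) (Eq.refl 8265)) (RangeOK.join (RangeOK.of_check ck430) (RangeOK.of_check ck431) (Eq.refl 8299)) (Eq.refl 8282)) (Eq.refl 8249)) (Eq.refl 8185)) (RangeOK.join (RangeOK.join (RangeOK.join (RangeOK.join (RangeOK.of_check ck432) (RangeOK.of_check ck433) (Eq.refl 8330)) (RangeOK.join (RangeOK.of_check ck434) (RangeOK.of_check ck435) (Eq.refl 8359)) (Eq.refl 8345)) (RangeOK.join (RangeOK.join (RangeOK.of_check ck436) (RangeOK.of_check ck437) (Eq.refl 8391)) (RangeOK.join (RangeOK.of_check ck438) (RangeOK.of_check ck439) (Eq.refl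 8425)) (Eq.refl 8407)) (Eq.refl 8374)) (RangeOK.join (RangeOK.join (RangeOK.join (RangeOK.of_check ck440) (RangeOK.of_check ck441) (Eq.refl 8458)) (RangeOK.join (RangeOK.of_check ck442) (RangeOK.of_check ck443) (Eq.refl 8491)) (Eq.refl 8474)) (RangeOK.join (RangeOK.join (RangeOK.of_check ck444) (RangeOK.of_check ck445) (Eq.refl 8523)) (RangeOK.join (RangeOK.of_check ck446) (RangeOK.of_check ck447) (Eq.refl 8555)) (Eq.refl 8538)) (Eq.refl 8507)) (Eq.refl 8441)) (Eq.refl 8314)) (Eq.refl 8058)

end Vale.Agent.Snaky.P2
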