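import Vale.Agent.Snaky.P2.Tbl

namespace Vale.Agent.Snaky.P2

theorem ck448 : checkRange tbl 8572 18 = 0 := by decide +kernel
theorem ck449 : checkRange tbl 8590 18 = 0 := by decide +kernel
theorem ck450 : checkRange tbl 8608 18 = 0 := by decide +kernel
theorem ck451 : checkRange tbl 8626 19 = 0 := by decide +kernel
theorem ck452 : checkRange tbl 8645 17 = 0 := by decide +kernel
theorem ck453 : checkRange tbl 8662 17 = 0 := by decide +kernel
theorem ck454 : checkRange tbl 8679 18 = 0 := by decide +kernel
theorem ck455 : checkRange tbl 8697 17 = 0 := by decide +kernel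
theorem ck456 : checkRange tbl 8714 17 = 0 := by decide +kernel
theorem ck457 : checkRange tbl 8731 18 = 0 := by decide +kernel
theorem ck458 : checkRange tbl 8749 18 = 0 := by decide +kernel
theorem ck459 : checkRange tbl 8767 17 = 0 := by decide +kernel
theorem ck460 : checkRange tbl 8784 16 = 0 := by decide +kernel
theorem ck461 : checkRange tbl 8800 19 = 0 := by decide +kernel
theorem ck462 : checkRange tbl 8819 18 = 0 := by decide +kernel
theorem ck463 : checkRange tbl 8837 19 = 0 := by decide +kernel
theorem ck464 : checkRange tbl 8856 18 = 0 := by decide +kernel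
theorem ck465 : checkRange tbl 8874 18 = 0 := by decide +kernel
theorem ck466 : checkRange tbl 8892 17 = 0 := by decide +kernel
theorem ck467 : checkRange tbl 8909 19 = 0 := by decide +kernel
theorem ck468 : checkRange tbl 8928 18 = 0 := by decide +kernel
theorem ck469 : checkRange tbl 8946 17 = 0 := by decide +kernel
theorem ck470 : checkRange tbl 8963 18 = 0 := by decide +kernel
theorem ck471 : checkRange tbl 8981 18 = 0 := by decide +kernel
theorem ck472 : checkRange tbl 8999 18 = 0 := by decide +kernel
theorem ck473 : checkRange tbl 9017 19 = 0 := by decide +kernel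
theorem ck474 : checkRange tbl 9036 17 = 0 := by decide +kernel
theorem ck475 : checkRange tbl 9053 19 = 0 := by decide +kernel
theorem ck476 : checkRange tbl 9072 17 = 0 := by decide +kernel
theorem ck477 : checkRange tbl 9089 18 = 0 := by decide +kernel
theorem ck478 : checkRange tbl 9107 16 = 0 := by decide +kernel
theorem ck479 : checkRange tbl 9123 16 = 0 := by decide +kernel
theorem ck480 : checkRange tbl 9139 17 = 0 := by decide +kernel
theorem ck481 : checkRange tbl 9156 17 = 0 := by decide +kernel
theorem ck482 : checkRange tbl 9173 17 = 0 := by decide +kernel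
theorem ck483 : checkRange tbl 9190 18 = 0 := by decide +kernel
theorem ck484 : checkRange tbl 9208 17 = 0 := by decide +kernel
theorem ck485 : checkRange tbl 9225 16 = 0 := by decide +kernel
theorem ck486 : checkRange tbl 9241 17 = 0 := by decide +kernel
theorem ck487 : checkRange tbl 9258 16 = 0 := by decide +kernel
theorem ck488 : checkRange tbl 9274 17 = 0 := by decide +kernel
theorem ck489 : checkRange tbl 9291 16 = 0 := by decide +kernel
theorem ck490 : checkRange tbl 9307 17 = 0 := by decide +kernel
theorem ck491 : checkRange tbl 9324 15 = 0 := by decide +kernel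
theorem ck492 : checkRange tbl 9339 19 = 0 := by decide +kernel
theorem ck493 : checkRange tbl 9358 15 = 0 := by decide +kernel
theorem ck494 : checkRange tbl 9373 15 = 0 := by decide +kernel
theorem ck495 : checkRange tbl 9388 15 = 0 := by decide +kernel
theorem ck496 : checkRange tbl 9403 13 = 0 := by decide +kernel
theorem ck497 : checkRange tbl 9416 12 = 0 := by decide +kernel
theorem ck498 : checkRange tbl 9428 15 = 0 := by decide +kernel
theorem ck499 : checkRange tbl 9443 15 = 0 := by decide +kernel
theorem ck500 : checkRange tbl 9458 15 = 0 := by decide +kernel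
theorem ck501 : checkRange tbl 9473 14 = 0 := by decide +kernel
theorem ck502 : checkRange tbl 9487 16 = 0 := by decide +kernel
theorem ck503 : checkRange tbl 9503 13 = 0 := by decide +kernel
theorem ck504 : checkRange tbl 9516 13 = 0 := by decide +kernel
theorem ck505 : checkRange tbl 9529 10 = 0 := by decide +kernel
theorem ck506 : checkRange tbl 9539 14 = 0 := by decide +kernel
theorem ck507 : checkRange tbl 9553 16 = 0 := by decide +kernel
theorem ck508 : checkRange tbl 9569 16 = 0 := by decide +kernel
theorem ck509 : checkRange tbl 9585 13 = 0 := by decide +kernel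
theorem ck510 : checkRange tbl 9598 15 = 0 := by decide +kernel
theorem ck511 : checkRange tbl 9613 18 = 0 := by decide +kernel

theorem rng7 : RangeOK tbl 8572 1059 := RangeOK.join (RangeOK.join (RangeOK.join (RangeOK.join (RangeOK.join (RangeOK.join (RangeOK.of_check ck448) (RangeOK.of_check ck449) (Eq.refl 8590)) (RangeOK.join (RangeOK.of_check ck450) (RangeOK.of_check ck451) (Eq.refl 8626)) (Eq.refl 8608)) (RangeOK.join (RangeOK.join (RangeOK.of_check ck452) (RangeOK.of_check ck453) (Eq.refl 8662)) (RangeOK.join (RangeOK.of_check ck454) (RangeOK.of_check ck455) (Eq.refl 8697)) (Eq.refl 8679)) (Eq.refl 8645)) (RangeOK.join (RangeOK.join (RangeOK.join (RangeOK.of_check ck456) (RangeOK.of_check ck457) (Eq.refl 8731)) (RangeOK.join (RangeOK.of_check ck458) (RangeOK.of_check ck459) (Eq.refl 8767)) (Eq.refl 8749)) (RangeOK.join (RangeOK.join (RangeOK.of_check ck460) (RangeOK.of_check ck461) (Eq.refl 8800)) (RangeOK.join (RangeOK.of_check ck462) (RangeOK.of_check ck463) (Eq.refl 8837)) (Eq.refl 8819)) (Eq.refl 8784)) (Eq.refl 8714)) (RangeOK.join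 (RangeOK.join (RangeOK.join (RangeOK.join (RangeOK.of_check ck464) (RangeOK.of_check ck465) (Eq.refl 8874)) (RangeOK.join (RangeOK.of_check ck466) (RangeOK.of_check ck467) (Eq.refl 8909)) (Eq.refl 8892)) (RangeOK.join (RangeOK.join (RangeOK.of_check ck468) (RangeOK.of_check ck469) (Eq.refl 8946)) (RangeOK.join (RangeOK.of_check ck470) (RangeOK.of_check ck471) (Eq.refl 8981)) (Eq.refl 8963)) (Eq.refl 8928)) (RangeOK.join (RangeOK.join (RangeOK.join (RangeOK.of_check ck472) (RangeOK.of_check ck473) (Eq.refl 9017)) (RangeOK.join (RangeOK.of_check ck474) (RangeOK.of_check ck475) (Eq.refl 9053)) (Eq.refl 9036)) (RangeOK.join (RangeOK.join (RangeOK.of_check ck476) (RangeOK.of_check ck477) (Eq.refl 9089)) (RangeOK.join (RangeOK.of_check ck478) (RangeOK.of_check ck479) (Eq.refl 9123)) (Eq.refl 9107)) (Eq.refl 9072)) (Eq.refl 8999)) (Eq.refl 8856)) (RangeOK.join (RangeOK.join (RangeOK.join (RangeOK.join (RangeOK.join (RangeOK.of_check ck480) (RangeOK.of_check ck481) (Eq.refl 9156)) (RangeOK.join (RangeOK.of_check ck482) (RangeOK.of_check ck483)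 (Eq.refl 9190)) (Eq.refl 9173)) (RangeOK.join (RangeOK.join (RangeOK.of_check ck484) (RangeOK.of_check ck485) (Eq.refl 9225)) (RangeOK.join (RangeOK.of_check ck486) (RangeOK.of_check ck487) (Eq.refl 9258)) (Eq.refl 9241)) (Eq.refl 9208)) (RangeOK.join (RangeOK.join (RangeOK.join (RangeOK.of_check ck488) (RangeOK.of_check ck489) (Eq.refl 9291)) (RangeOK.join (RangeOK.of_check ck490) (RangeOK.of_check ck491) (Eq.refl 9324)) (Eq.refl 9307)) (RangeOK.join (RangeOK.join (RangeOK.of_check ck492) (RangeOK.of_check ck493) (Eq.refl 9358)) (RangeOK.join (RangeOK.of_check ck494) (RangeOK.of_check ck495) (Eq.refl 9388)) (Eq.refl 9373)) (Eq.refl 9339)) (Eq.refl 9274)) (RangeOK.join (RangeOK.join (RangeOK.join (RangeOK.join (RangeOK.of_check ck496) (RangeOK.of_check ck497) (Eq.refl 9416)) (RangeOK.join (RangeOK.of_check ck498) (RangeOK.of_check ck499) (Eq.refl 9443)) (Eq.refl 9428)) (RangeOK.join (RangeOK.join (RangeOK.of_check ck500) (RangeOK.of_check ck501) (Eq.refl 9473)) (RangeOK.join (RangeOK.of_check ck502) (RangeOK.of_check ck503) (Eq.refl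 9503)) (Eq.refl 9487)) (Eq.refl 9458)) (RangeOK.join (RangeOK.join (RangeOK.join (RangeOK.of_check ck504) (RangeOK.of_check ck505) (Eq.refl 9529)) (RangeOK.join (RangeOK.of_check ck506) (RangeOK.of_check ck507) (Eq.refl 9553)) (Eq.refl 9539)) (RangeOK.join (RangeOK.join (RangeOK.of_check ck508) (RangeOK.of_check ck509) (Eq.refl 9585)) (RangeOK.join (RangeOK.of_check ck510) (RangeOK.of_check ck511) (Eq.refl 9613)) (Eq.refl 9598)) (Eq.refl 9569)) (Eq.refl 9516)) (Eq.refl 9403)) (Eq.refl 9139)

end Vale.Agent.Snaky.P2
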