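import Vale.Agent.Snaky.P2.Tbl

namespace Vale.Agent.Snaky.P2

theorem ck512 : checkRange tbl 9631 15 = 0 := by decide +kernel
theorem ck513 : checkRange tbl 9646 17 = 0 := by decide +kernel
theorem ck514 : checkRange tbl 9663 15 = 0 := by decide +kernel
theorem ck515 : checkRange tbl 9678 17 = 0 := by decide +kernel
theorem ck516 : checkRange tbl 9695 19 = 0 := by decide +kernel
theorem ck517 : checkRange tbl 9714 22 = 0 := by decide +kernel
theorem ck518 : checkRange tbl 9736 16 = 0 := by decide +kernel
theorem ck519 : checkRange tbl 9752 17 = 0 := by decide +kernel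
theorem ck520 : checkRange tbl 9769 19 = 0 := by decide +kernel
theorem ck521 : checkRange tbl 9788 14 = 0 := by decide +kernel
theorem ck522 : checkRange tbl 9802 15 = 0 := by decide +kernel
theorem ck523 : checkRange tbl 9817 15 = 0 := by decide +kernel
theorem ck524 : checkRange tbl 9832 19 = 0 := by decide +kernel
theorem ck525 : checkRange tbl 9851 20 = 0 := by decide +kernel
theorem ck526 : checkRange tbl 9871 16 = 0 := by decide +kernel
theorem ck527 : checkRange tbl 9887 19 = 0 := by decide +kernel
theorem ck528 : checkRange tbl 9906 16 = 0 := by decide +kernel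
theorem ck529 : checkRange tbl 9922 18 = 0 := by decide +kernel
theorem ck530 : checkRange tbl 9940 18 = 0 := by decide +kernel
theorem ck531 : checkRange tbl 9958 20 = 0 := by decide +kernel
theorem ck532 : checkRange tbl 9978 18 = 0 := by decide +kernel
theorem ck533 : checkRange tbl 9996 21 = 0 := by decide +kernel
theorem ck534 : checkRange tbl 10017 21 = 0 := by decide +kernel
theorem ck535 : checkRange tbl 10038 17 = 0 := by decide +kernel
theorem ck536 : checkRange tbl 10055 16 = 0 := by decide +kernel
theorem ck537 : checkRange tbl 10071 18 = 0 := by decide +kernel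
theorem ck538 : checkRange tbl 10089 22 = 0 := by decide +kernel
theorem ck539 : checkRange tbl 10111 19 = 0 := by decide +kernel
theorem ck540 : checkRange tbl 10130 18 = 0 := by decide +kernel
theorem ck541 : checkRange tbl 10148 24 = 0 := by decide +kernel
theorem ck542 : checkRange tbl 10172 21 = 0 := by decide +kernel
theorem ck543 : checkRange tbl 10193 17 = 0 := by decide +kernel
theorem ck544 : checkRange tbl 10210 24 = 0 := by decide +kernel
theorem ck545 : checkRange tbl 10234 26 = 0 := by decide +kernel
theorem ck546 : checkRange tbl 10260 21 = 0 := by decide +kernel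
theorem ck547 : checkRange tbl 10281 18 = 0 := by decide +kernel
theorem ck548 : checkRange tbl 10299 16 = 0 := by decide +kernel
theorem ck549 : checkRange tbl 10315 21 = 0 := by decide +kernel
theorem ck550 : checkRange tbl 10336 25 = 0 := by decide +kernel
theorem ck551 : checkRange tbl 10361 16 = 0 := by decide +kernel
theorem ck552 : checkRange tbl 10377 26 = 0 := by decide +kernel
theorem ck553 : checkRange tbl 10403 24 = 0 := by decide +kernel
theorem ck554 : checkRange tbl 10427 21 = 0 := by decide +kernel
theorem ck555 : checkRange tbl 10448 24 = 0 := by decide +kernel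
theorem ck556 : checkRange tbl 10472 22 = 0 := by decide +kernel
theorem ck557 : checkRange tbl 10494 25 = 0 := by decide +kernel
theorem ck558 : checkRange tbl 10519 25 = 0 := by decide +kernel
theorem ck559 : checkRange tbl 10544 22 = 0 := by decide +kernel
theorem ck560 : checkRange tbl 10566 25 = 0 := by decide +kernel
theorem ck561 : checkRange tbl 10591 22 = 0 := by decide +kernel
theorem ck562 : checkRange tbl 10613 17 = 0 := by decide +kernel
theorem ck563 : checkRange tbl 10630 24 = 0 := by decide +kernel
theorem ck564 : checkRange tbl 10654 20 = 0 := by decide +kernel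
theorem ck565 : checkRange tbl 10674 25 = 0 := by decide +kernel
theorem ck566 : checkRange tbl 10699 28 = 0 := by decide +kernel
theorem ck567 : checkRange tbl 10727 21 = 0 := by decide +kernel
theorem ck568 : checkRange tbl 10748 23 = 0 := by decide +kernel
theorem ck569 : checkRange tbl 10771 16 = 0 := by decide +kernel
theorem ck570 : checkRange tbl 10787 21 = 0 := by decide +kernel
theorem ck571 : checkRange tbl 10808 20 = 0 := by decide +kernel
theorem ck572 : checkRange tbl 10828 22 = 0 := by decide +kernel
theorem ck573 : checkRange tbl 10850 18 = 0 := by decide +kernel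
theorem ck574 : checkRange tbl 10868 23 = 0 := by decide +kernel
theorem ck575 : checkRange tbl 10891 18 = 0 := by decide +kernel

theorem rng8 : RangeOK tbl 9631 1278 := RangeOK.join (RangeOK.join (RangeOK.join (RangeOK.join (RangeOK.join (RangeOK.join (RangeOK.of_check ck512) (RangeOK.of_check ck513) (Eq.refl 9646)) (RangeOK.join (RangeOK.of_check ck514) (RangeOK.of_check ck515) (Eq.refl 9678)) (Eq.refl 9663)) (RangeOK.join (RangeOK.join (RangeOK.of_check ck516) (RangeOK.of_check ck517) (Eq.refl 9714)) (RangeOK.join (RangeOK.of_check ck518) (RangeOK.of_check ck519) (Eq.refl 9752)) (Eq.refl 9736)) (Eq.refl 9695)) (RangeOK.join (RangeOK.join (RangeOK.join (RangeOK.of_check ck520) (RangeOK.of_check ck521) (Eq.refl 9788)) (RangeOK.join (RangeOK.of_check ck522) (RangeOK.of_check ck523) (Eq.refl 9817)) (Eq.refl 9802)) (RangeOK.join (RangeOK.join (RangeOK.of_check ck524) (RangeOK.of_check ck525) (Eq.refl 9851)) (RangeOK.join (RangeOK.of_check ck526) (RangeOK.of_check ck527) (Eq.refl 9887)) (Eq.refl 9871)) (Eq.refl 9832)) (Eq.refl 9769)) (RangeOK.join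 (RangeOK.join (RangeOK.join (RangeOK.join (RangeOK.of_check ck528) (RangeOK.of_check ck529) (Eq.refl 9922)) (RangeOK.join (RangeOK.of_check ck530) (RangeOK.of_check ck531) (Eq.refl 9958)) (Eq.refl 9940)) (RangeOK.join (RangeOK.join (RangeOK.of_check ck532) (RangeOK.of_check ck533) (Eq.refl 9996)) (RangeOK.join (RangeOK.of_check ck534) (RangeOK.of_check ck535) (Eq.refl 10038)) (Eq.refl 10017)) (Eq.refl 9978)) (RangeOK.join (RangeOK.join (RangeOK.join (RangeOK.of_check ck536) (RangeOK.of_check ck537) (Eq.refl 10071)) (RangeOK.join (RangeOK.of_check ck538) (RangeOK.of_check ck539) (Eq.refl 10111)) (Eq.refl 10089)) (RangeOK.join (RangeOK.join (RangeOK.of_check ck540) (RangeOK.of_check ck541) (Eq.refl 10148)) (RangeOK.join (RangeOK.of_check ck542) (RangeOK.of_check ck543) (Eq.refl 10193)) (Eq.refl 10172)) (Eq.refl 10130)) (Eq.refl 10055)) (Eq.refl 9906)) (RangeOK.join (RangeOK.join (RangeOK.join (RangeOK.join (RangeOK.join (RangeOK.of_check ck544) (RangeOK.of_check ck545) (Eq.refl 10234)) (RangeOK.join (RangeOK.of_check ck546) (RangeOK.of_check ck547)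 (Eq.refl 10281)) (Eq.refl 10260)) (RangeOK.join (RangeOK.join (RangeOK.of_check ck548) (RangeOK.of_check ck549) (Eq.refl 10315)) (RangeOK.join (RangeOK.of_check ck550) (RangeOK.of_check ck551) (Eq.refl 10361)) (Eq.refl 10336)) (Eq.refl 10299)) (RangeOK.join (RangeOK.join (RangeOK.join (RangeOK.of_check ck552) (RangeOK.of_check ck553) (Eq.refl 10403)) (RangeOK.join (RangeOK.of_check ck554) (RangeOK.of_check ck555) (Eq.refl 10448)) (Eq.refl 10427)) (RangeOK.join (RangeOK.join (RangeOK.of_check ck556) (RangeOK.of_check ck557) (Eq.refl 10494)) (RangeOK.join (RangeOK.of_check ck558) (RangeOK.of_check ck559) (Eq.refl 10544)) (Eq.refl 10519)) (Eq.refl 10472)) (Eq.refl 10377)) (RangeOK.join (RangeOK.join (RangeOK.join (RangeOK.join (RangeOK.of_check ck560) (RangeOK.of_check ck561) (Eq.refl 10591)) (RangeOK.join (RangeOK.of_check ck562) (RangeOK.of_check ck563) (Eq.refl 10630)) (Eq.refl 10613)) (RangeOK.join (RangeOK.join (RangeOK.of_check ck564) (RangeOK.of_check ck565) (Eq.refl 10674)) (RangeOK.join (RangeOK.of_check ck566) (RangeOK.of_check ck567) (Eq.refl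 10727)) (Eq.refl 10699)) (Eq.refl 10654)) (RangeOK.join (RangeOK.join (RangeOK.join (RangeOK.of_check ck568) (RangeOK.of_check ck569) (Eq.refl 10771)) (RangeOK.join (RangeOK.of_check ck570) (RangeOK.of_check ck571) (Eq.refl 10808)) (Eq.refl 10787)) (RangeOK.join (RangeOK.join (RangeOK.of_check ck572) (RangeOK.of_check ck573) (Eq.refl 10850)) (RangeOK.join (RangeOK.of_check ck574) (RangeOK.of_check ck575) (Eq.refl 10891)) (Eq.refl 10868)) (Eq.refl 10828)) (Eq.refl 10748)) (Eq.refl 10566)) (Eq.refl 10210)

end Vale.Agent.Snaky.P2
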