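import Vale.Agent.Snaky.P2.Tbl

namespace Vale.Agent.Snaky.P2

theorem ck576 : checkRange tbl 10909 23 = 0 := by decide +kernel
theorem ck577 : checkRange tbl 10932 22 = 0 := by decide +kernel
theorem ck578 : checkRange tbl 10954 25 = 0 := by decide +kernel
theorem ck579 : checkRange tbl 10979 26 = 0 := by decide +kernel
theorem ck580 : checkRange tbl 11005 26 = 0 := by decide +kernel
theorem ck581 : checkRange tbl 11031 22 = 0 := by decide +kernel
theorem ck582 : checkRange tbl 11053 24 = 0 := by decide +kernel
theorem ck583 : checkRange tbl 11077 25 = 0 := by decide +kernel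
theorem ck584 : checkRange tbl 11102 25 = 0 := by decide +kernel
theorem ck585 : checkRange tbl 11127 23 = 0 := by decide +kernel
theorem ck586 : checkRange tbl 11150 28 = 0 := by decide +kernel
theorem ck587 : checkRange tbl 11178 24 = 0 := by decide +kernel
theorem ck588 : checkRange tbl 11202 27 = 0 := by decide +kernel
theorem ck589 : checkRange tbl 11229 26 = 0 := by decide +kernel
theorem ck590 : checkRange tbl 11255 28 = 0 := by decide +kernel
theorem ck591 : checkRange tbl 11283 24 = 0 := by decide +kernel
theorem ck592 : checkRange tbl 11307 25 = 0 := by decide +kernel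
theorem ck593 : checkRange tbl 11332 30 = 0 := by decide +kernel
theorem ck594 : checkRange tbl 11362 23 = 0 := by decide +kernel
theorem ck595 : checkRange tbl 11385 28 = 0 := by decide +kernel
theorem ck596 : checkRange tbl 11413 28 = 0 := by decide +kernel
theorem ck597 : checkRange tbl 11441 27 = 0 := by decide +kernel
theorem ck598 : checkRange tbl 11468 25 = 0 := by decide +kernel
theorem ck599 : checkRange tbl 11493 30 = 0 := by decide +kernel
theorem ck600 : checkRange tbl 11523 30 = 0 := by decide +kernel
theorem ck601 : checkRange tbl 11553 23 = 0 := by decide +kernel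
theorem ck602 : checkRange tbl 11576 30 = 0 := by decide +kernel
theorem ck603 : checkRange tbl 11606 30 = 0 := by decide +kernel
theorem ck604 : checkRange tbl 11636 28 = 0 := by decide +kernel
theorem ck605 : checkRange tbl 11664 30 = 0 := by decide +kernel
theorem ck606 : checkRange tbl 11694 30 = 0 := by decide +kernel
theorem ck607 : checkRange tbl 11724 30 = 0 := by decide +kernel
theorem ck608 : checkRange tbl 11754 27 = 0 := by decide +kernel
theorem ck609 : checkRange tbl 11781 14 = 0 := by decide +kernel
theorem ck610 : checkRange tbl 11795 15 = 0 := by decide +kernel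
theorem ck611 : checkRange tbl 11810 13 = 0 := by decide +kernel
theorem ck612 : checkRange tbl 11823 14 = 0 := by decide +kernel
theorem ck613 : checkRange tbl 11837 15 = 0 := by decide +kernel
theorem ck614 : checkRange tbl 11852 16 = 0 := by decide +kernel
theorem ck615 : checkRange tbl 11868 15 = 0 := by decide +kernel
theorem ck616 : checkRange tbl 11883 11 = 0 := by decide +kernel
theorem ck617 : checkRange tbl 11894 13 = 0 := by decide +kernel
theorem ck618 : checkRange tbl 11907 14 = 0 := by decide +kernel
theorem ck619 : checkRange tbl 11921 14 = 0 := by decide +kernel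
theorem ck620 : checkRange tbl 11935 14 = 0 := by decide +kernel
theorem ck621 : checkRange tbl 11949 13 = 0 := by decide +kernel
theorem ck622 : checkRange tbl 11962 17 = 0 := by decide +kernel
theorem ck623 : checkRange tbl 11979 13 = 0 := by decide +kernel
theorem ck624 : checkRange tbl 11992 14 = 0 := by decide +kernel
theorem ck625 : checkRange tbl 12006 13 = 0 := by decide +kernel
theorem ck626 : checkRange tbl 12019 15 = 0 := by decide +kernel
theorem ck627 : checkRange tbl 12034 15 = 0 := by decide +kernel
theorem ck628 : checkRange tbl 12049 16 = 0 := by decide +kernel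
theorem ck629 : checkRange tbl 12065 15 = 0 := by decide +kernel
theorem ck630 : checkRange tbl 12080 15 = 0 := by decide +kernel
theorem ck631 : checkRange tbl 12095 16 = 0 := by decide +kernel
theorem ck632 : checkRange tbl 12111 15 = 0 := by decide +kernel
theorem ck633 : checkRange tbl 12126 15 = 0 := by decide +kernel
theorem ck634 : checkRange tbl 12141 13 = 0 := by decide +kernel
theorem ck635 : checkRange tbl 12154 14 = 0 := by decide +kernel
theorem ck636 : checkRange tbl 12168 14 = 0 := by decide +kernel
theorem ck637 : checkRange tbl 12182 12 = 0 := by decide +kernel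
theorem ck638 : checkRange tbl 12194 15 = 0 := by decide +kernel
theorem ck639 : checkRange tbl 12209 18 = 0 := by decide +kernel

theorem rng9 : RangeOK tbl 10909 1318 := RangeOK.join (RangeOK.join (RangeOK.join (RangeOK.join (RangeOK.join (RangeOK.join (RangeOK.of_check ck576) (RangeOK.of_check ck577) (Eq.refl 10932)) (RangeOK.join (RangeOK.of_check ck578) (RangeOK.of_check ck579) (Eq.refl 10979)) (Eq.refl 10954)) (RangeOK.join (RangeOK.join (RangeOK.of_check ck580) (RangeOK.of_check ck581) (Eq.refl 11031)) (RangeOK.join (RangeOK.of_check ck582) (RangeOK.of_check ck583) (Eq.refl 11077)) (Eq.refl 11053)) (Eq.refl 11005)) (RangeOK.join (RangeOK.join (RangeOK.join (RangeOK.of_check ck584) (RangeOK.of_check ck585) (Eq.refl 11127)) (RangeOK.join (RangeOK.of_check ck586) (RangeOK.of_check ck587) (Eq.refl 11178)) (Eq.refl 11150)) (RangeOK.join (RangeOK.join (RangeOK.of_check ck588) (RangeOK.of_check ck589) (Eq.refl 11229)) (RangeOK.join (RangeOK.of_check ck590) (RangeOK.of_check ck591) (Eq.refl 11283)) (Eq.refl 11255)) (Eq.refl 11202)) (Eq.refl 11102)) (RangeOK.join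 (RangeOK.join (RangeOK.join (RangeOK.join (RangeOK.of_check ck592) (RangeOK.of_check ck593) (Eq.refl 11332)) (RangeOK.join (RangeOK.of_check ck594) (RangeOK.of_check ck595) (Eq.refl 11385)) (Eq.refl 11362)) (RangeOK.join (RangeOK.join (RangeOK.of_check ck596) (RangeOK.of_check ck597) (Eq.refl 11441)) (RangeOK.join (RangeOK.of_check ck598) (RangeOK.of_check ck599) (Eq.refl 11493)) (Eq.refl 11468)) (Eq.refl 11413)) (RangeOK.join (RangeOK.join (RangeOK.join (RangeOK.of_check ck600) (RangeOK.of_check ck601) (Eq.refl 11553)) (RangeOK.join (RangeOK.of_check ck602) (RangeOK.of_check ck603) (Eq.refl 11606)) (Eq.refl 11576)) (RangeOK.join (RangeOK.join (RangeOK.of_check ck604) (RangeOK.of_check ck605) (Eq.refl 11664)) (RangeOK.join (RangeOK.of_check ck606) (RangeOK.of_check ck607) (Eq.refl 11724)) (Eq.refl 11694)) (Eq.refl 11636)) (Eq.refl 11523)) (Eq.refl 11307)) (RangeOK.join (RangeOK.join (RangeOK.join (RangeOK.join (RangeOK.join (RangeOK.of_check ck608) (RangeOK.of_check ck609) (Eq.refl 11781)) (RangeOK.join (RangeOK.of_check ck610) (RangeOK.of_check ck611)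 (Eq.refl 11810)) (Eq.refl 11795)) (RangeOK.join (RangeOK.join (RangeOK.of_check ck612) (RangeOK.of_check ck613) (Eq.refl 11837)) (RangeOK.join (RangeOK.of_check ck614) (RangeOK.of_check ck615) (Eq.refl 11868)) (Eq.refl 11852)) (Eq.refl 11823)) (RangeOK.join (RangeOK.join (RangeOK.join (RangeOK.of_check ck616) (RangeOK.of_check ck617) (Eq.refl 11894)) (RangeOK.join (RangeOK.of_check ck618) (RangeOK.of_check ck619) (Eq.refl 11921)) (Eq.refl 11907)) (RangeOK.join (RangeOK.join (RangeOK.of_check ck620) (RangeOK.of_check ck621) (Eq.refl 11949)) (RangeOK.join (RangeOK.of_check ck622) (RangeOK.of_check ck623) (Eq.refl 11979)) (Eq.refl 11962)) (Eq.refl 11935)) (Eq.refl 11883)) (RangeOK.join (RangeOK.join (RangeOK.join (RangeOK.join (RangeOK.of_check ck624) (RangeOK.of_check ck625) (Eq.refl 12006)) (RangeOK.join (RangeOK.of_check ck626) (RangeOK.of_check ck627) (Eq.refl 12034)) (Eq.refl 12019)) (RangeOK.join (RangeOK.join (RangeOK.of_check ck628) (RangeOK.of_check ck629) (Eq.refl 12065)) (RangeOK.join (RangeOK.of_check ck630) (RangeOK.of_check ck631) (Eq.refl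 12095)) (Eq.refl 12080)) (Eq.refl 12049)) (RangeOK.join (RangeOK.join (RangeOK.join (RangeOK.of_check ck632) (RangeOK.of_check ck633) (Eq.refl 12126)) (RangeOK.join (RangeOK.of_check ck634) (RangeOK.of_check ck635) (Eq.refl 12154)) (Eq.refl 12141)) (RangeOK.join (RangeOK.join (RangeOK.of_check ck636) (RangeOK.of_check ck637) (Eq.refl 12182)) (RangeOK.join (RangeOK.of_check ck638) (RangeOK.of_check ck639) (Eq.refl 12209)) (Eq.refl 12194)) (Eq.refl 12168)) (Eq.refl 12111)) (Eq.refl 11992)) (Eq.refl 11754)

end Vale.Agent.Snaky.P2
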