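import Vale.Agent.Snaky.P2.D0
import Vale.Agent.Snaky.P2.D1
import Vale.Agent.Snaky.P2.D2
import Vale.Agent.Snaky.P2.D3

namespace Vale.Agent.Snaky.P2

noncomputable def top : T2 := T2.node (T2.node (T2.node (T2.node (T2.node (T2.node (T2.node (T2.leaf b0) (T2.leaf b64)) (T2.node (T2.leaf b32) (T2.leaf b96))) (T2.node (T2.node (T2.leaf b16) (T2.leaf b80)) (T2.node (T2.leaf b48) (T2.leaf b96)))) (T2.node (T2.node (T2.node (T2.leaf b8) (T2.leaf b72)) (T2.node (T2.leaf b40) (T2.leaf b96))) (T2.node (T2.node (T2.leaf b24) (T2.leaf b88)) (T2.node (T2.leaf b56) (T2.leaf b96))))) (T2.node (T2.node (T2.node (T2.node (T2.leaf b4) (T2.leaf b68)) (T2.node (T2.leaf b36) (T2.leaf b96))) (T2.node (T2.node (T2.leaf b20) (T2.leaf b84)) (T2.node (T2.leaf b52) (T2.leaf b96)))) (T2.node (T2.node (T2.node (T2.leaf b12) (T2.leaf b76)) (T2.node (T2.leaf b44) (T2.leaf b96))) (T2.node (T2.node (T2.leaf b28) (T2.leaf b92)) (T2.node (T2.leaf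 b60) (T2.leaf b96)))))) (T2.node (T2.node (T2.node (T2.node (T2.node (T2.leaf b2) (T2.leaf b66)) (T2.node (T2.leaf b34) (T2.leaf b96))) (T2.node (T2.node (T2.leaf b18) (T2.leaf b82)) (T2.node (T2.leaf b50) (T2.leaf b96)))) (T2.node (T2.node (T2.node (T2.leaf b10) (T2.leaf b74)) (T2.node (T2.leaf b42) (T2.leaf b96))) (T2.node (T2.node (T2.leaf b26) (T2.leaf b90)) (T2.node (T2.leaf b58) (T2.leaf b96))))) (T2.node (T2.node (T2.node (T2.node (T2.leaf b6) (T2.leaf b70)) (T2.node (T2.leaf b38) (T2.leaf b96))) (T2.node (T2.node (T2.leaf b22) (T2.leaf b86)) (T2.node (T2.leaf b54) (T2.leaf b96)))) (T2.node (T2.node (T2.node (T2.leaf b14) (T2.leaf b78)) (T2.node (T2.leaf b46) (T2.leaf b96))) (T2.node (T2.node (T2.leaf b30) (T2.leaf b94)) (T2.node (T2.leaf b62) (T2.leaf b96))))))) (T2.node (T2.node (T2.node (T2.node (T2.node (T2.node (T2.leaf b1) (T2.leaf b65)) (T2.node (T2.leaf b33) (T2.leaf b96))) (T2.node (T2.node (T2.leaf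 b17) (T2.leaf b81)) (T2.node (T2.leaf b49) (T2.leaf b96)))) (T2.node (T2.node (T2.node (T2.leaf b9) (T2.leaf b73)) (T2.node (T2.leaf b41) (T2.leaf b96))) (T2.node (T2.node (T2.leaf b25) (T2.leaf b89)) (T2.node (T2.leaf b57) (T2.leaf b96))))) (T2.node (T2.node (T2.node (T2.node (T2.leaf b5) (T2.leaf b69)) (T2.node (T2.leaf b37) (T2.leaf b96))) (T2.node (T2.node (T2.leaf b21) (T2.leaf b85)) (T2.node (T2.leaf b53) (T2.leaf b96)))) (T2.node (T2.node (T2.node (T2.leaf b13) (T2.leaf b77)) (T2.node (T2.leaf b45) (T2.leaf b96))) (T2.node (T2.node (T2.leaf b29) (T2.leaf b93)) (T2.node (T2.leaf b61) (T2.leaf b96)))))) (T2.node (T2.node (T2.node (T2.node (T2.node (T2.leaf b3) (T2.leaf b67)) (T2.node (T2.leaf b35) (T2.leaf b96))) (T2.node (T2.node (T2.leaf b19) (T2.leaf b83)) (T2.node (T2.leaf b51) (T2.leaf b96)))) (T2.node (T2.node (T2.node (T2.leaf b11) (T2.leaf b75)) (T2.node (T2.leaf b43) (T2.leaf b96))) (T2.node (T2.node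 (T2.leaf b27) (T2.leaf b91)) (T2.node (T2.leaf b59) (T2.leaf b96))))) (T2.node (T2.node (T2.node (T2.node (T2.leaf b7) (T2.leaf b71)) (T2.node (T2.leaf b39) (T2.leaf b96))) (T2.node (T2.node (T2.leaf b23) (T2.leaf b87)) (T2.node (T2.leaf b55) (T2.leaf b96)))) (T2.node (T2.node (T2.node (T2.leaf b15) (T2.leaf b79)) (T2.node (T2.leaf b47) (T2.leaf b96))) (T2.node (T2.node (T2.leaf b31) (T2.leaf b95)) (T2.node (T2.leaf b63) (T2.leaf b96)))))))

noncomputable def tbl (i : Nat) : Ent := T.get (T2.get top (Nat.shiftRight i 8)) (Nat.land i 255)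

end Vale.Agent.Snaky.P2
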